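import Mathlib

/-!
Stability of the curves `y ^ 2 = f(x)`: a vector field `v = D(x)` on such a curve is zero, if `f` has
degree at least 5, no triple root and at least three distinct roots; and the same for the
projective line with three marked points.
-/

noncomputable section

namespace Vale.Agent.P273.H724

open Filter Topology Polynomial

/-- A holomorphic function on the complement of a finite set, with removable singularities, which
tends to zero at infinity, is zero. -/
theorem eq_zero_of_removable (Z : Finset ℂ) : ∀ h : ℂ → ℂ,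
    (∀ x, x ∉ Z → DifferentiableAt ℂ h x) →
    (∀ b ∈ Z, Tendsto (fun x => (x - b) * h x) (𝓝[≠] b) (𝓝 0)) →
    Tendsto h (cocompact ℂ) (𝓝 0) → ∀ x, x ∉ Z → h x = 0 := by
  classical
  induction Z using Finset.induction_on with
  | empty =>
    intro h hd _ hinf x _
    have hdiff : Differentiable ℂ h := fun x => hd x (by simp)
    have := hdiff.apply_eq_of_tendsto_cocompact x hinf
    exact this
  | insert b Z hb ih =>
    intro h hd hs hinf x hx
    have hxb : x ≠ b := fun h => hx (by simp [h])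
    set h' : ℂ → ℂ := Function.update h b (limUnder (𝓝[≠] b) h) with hh'
    have hne : ∀ y, y ≠ b → h' y = h y := fun y hy => by simp [hh', hy]
    have hev : ∀ y, y ≠ b → h' =ᶠ[𝓝 y] h := fun y hy => by
      filter_upwards [isOpen_ne.mem_nhds hy] with z hz using hne z hz
    have hd' : ∀ y, y ∉ Z → DifferentiableAt ℂ h' y := by
      intro y hy
      by_cases hyb : y = b
      · subst hyb
        obtain ⟨U, hU, hUZ⟩ : ∃ U ∈ 𝓝 y, ∀ z ∈ U, z ≠ y → z ∉ insert y Z := by
          refine ⟨(↑Z : Set ℂ)ᶜ, Z.finite_toSet.isClosed.isOpen_compl.mem_nhds (by simpa using hy), ?_⟩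
          intro z hz hzy
          simp only [Set.mem_compl_iff, Finset.mem_coe] at hz
          simp [hz, hzy]
        have key := Complex.differentiableOn_update_limUnder_of_isLittleO (f := h) (c := y) hU
          (fun z hz => (hd z (hUZ z hz.1 hz.2)).differentiableWithinAt) ?_
        · exact (key.differentiableAt hU)
        · rw [Asymptotics.isLittleO_iff_tendsto']
          · have h1 := hs y (by simp)
            have h2 : Tendsto (fun x => (x - y) * h x - (x - y) * h y) (𝓝[≠] y) (𝓝 (0 - 0)) := by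
              refine h1.sub ?_
              have : Tendsto (fun x : ℂ => (x - y) * h y) (𝓝 y) (𝓝 ((y - y) * h y)) :=
                ((continuous_id.sub continuous_const).mul continuous_const).tendsto y
              simp only [sub_self, zero_mul] at this
              exact this.mono_left nhdsWithin_le_nhds
            simp only [sub_zero] at h2
            refine h2.congr' ?_
            filter_upwards [self_mem_nhdsWithin] with z hz
            have : z - y ≠ 0 := sub_ne_zero.2 hz
            field_simp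
          · filter_upwards [self_mem_nhdsWithin] with z hz h0
            exact absurd h0 (inv_ne_zero (sub_ne_zero.2 hz))
      · exact (hd y (by simp [hy, hyb])).congr_of_eventuallyEq (hev y hyb)
    rw [← hne x hxb]
    refine ih h' hd' ?_ ?_ x (fun h => hx (by simp [h]))
    · intro c hc
      have hcb : c ≠ b := fun h => hb (h ▸ hc)
      refine (hs c (by simp [hc])).congr' ?_
      filter_upwards [nhdsWithin_le_nhds (hev c hcb)] with z hz
      rw [hz]
    · refine hinf.congr' ?_
      filter_upwards [(isCompact_singleton (x := b)).compl_mem_cocompact] with z hz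
      exact (hne z hz).symm

/-- Lower bound of a product of linear factors at infinity. -/
theorem prod_lower (s : Multiset ℂ) : ∀ᶠ x in cocompact ℂ,
    (‖x‖ / 2) ^ Multiset.card s ≤ (s.map fun a => ‖x - a‖).prod := by
  induction s using Multiset.induction_on with
  | empty => simp
  | cons a s ih =>
    have h1 : ∀ᶠ x in cocompact ℂ, 2 * ‖a‖ ≤ ‖x‖ :=
      (tendsto_norm_cocompact_atTop (E := ℂ)).eventually (eventually_ge_atTop _)
    filter_upwards [ih, h1] with x hx hx1
    rw [Multiset.map_cons, Multiset.prod_cons, Multiset.card_cons, pow_succ, mul_comm]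
    refine mul_le_mul ?_ hx (by positivity) (norm_nonneg _)
    have := norm_sub_norm_le x a
    linarith

theorem norm_mprod (s : Multiset ℂ) (x : ℂ) :
    ‖(s.map fun a => x - a).prod‖ = (s.map fun a => ‖x - a‖).prod := by
  induction s using Multiset.induction_on with
  | empty => simp
  | cons a s ih => rw [Multiset.map_cons, Multiset.prod_cons, norm_mul, ih, Multiset.map_cons,
      Multiset.prod_cons]

/-- Lower bound of a polynomial at infinity. -/
theorem growth {f : ℂ[X]} (hf : f ≠ 0) {n : ℕ} (hn : n ≤ f.natDegree) :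
    ∃ c > 0, ∀ᶠ x in cocompact ℂ, c * ‖x‖ ^ n ≤ ‖f.eval x‖ := by
  have hsp : f.Splits := IsAlgClosed.splits f
  have hcard : Multiset.card f.roots = f.natDegree := (splits_iff_card_roots.1 hsp)
  have hl : 0 < ‖f.leadingCoeff‖ := norm_pos_iff.2 (leadingCoeff_ne_zero.2 hf)
  refine ⟨‖f.leadingCoeff‖ * (1 / 2) ^ f.natDegree, by positivity, ?_⟩
  have h1 : ∀ᶠ x in cocompact ℂ, (1 : ℝ) ≤ ‖x‖ :=
    (tendsto_norm_cocompact_atTop (E := ℂ)).eventually (eventually_ge_atTop _)
  filter_upwards [prod_lower f.roots, h1] with x hx hx1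
  have e : f.eval x = f.leadingCoeff * (f.roots.map fun a => x - a).prod := by
    conv_lhs => rw [hsp.eq_prod_roots]
    rw [eval_mul, eval_C, eval_multiset_prod, Multiset.map_map]
    simp
  rw [e, norm_mul, norm_mprod, mul_assoc]
  refine mul_le_mul_of_nonneg_left (le_trans ?_ hx) hl.le
  have e2 : (‖x‖ / 2) ^ f.natDegree = ‖x‖ ^ f.natDegree * (1 / 2) ^ f.natDegree := by
    rw [← mul_pow]; congr 1; ring
  rw [hcard, e2, mul_comm]
  exact mul_le_mul_of_nonneg_right (pow_le_pow_right₀ hx1 hn) (by positivity)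

/-- A local analytic square root. -/
theorem exists_root {f : ℂ[X]} {x₀ y₀ : ℂ} (h0 : f.eval x₀ ≠ 0) (hy : y₀ ^ 2 = f.eval x₀) :
    ∃ ρ : ℂ → ℂ, AnalyticAt ℂ ρ x₀ ∧ (∀ x, ρ x ^ 2 = f.eval x) ∧ ρ x₀ = y₀ := by
  refine ⟨fun x => y₀ * (f.eval x / f.eval x₀) ^ (1 / 2 : ℂ), ?_, ?_, ?_⟩
  · refine analyticAt_const.mul (AnalyticAt.cpow ?_ analyticAt_const ?_)
    · exact AnalyticAt.div (f.differentiable.analyticAt x₀) analyticAt_const h0
    · simp [div_self h0]
  · intro x
    have h2 : (((f.eval x / f.eval x₀) ^ (1 / 2 : ℂ)) ^ 2) = f.eval x / f.eval x₀ := by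
      have := Complex.cpow_nat_inv_pow (f.eval x / f.eval x₀) (n := 2) two_ne_zero
      simpa using this
    rw [mul_pow, h2, hy, mul_div_cancel₀ _ h0]
  · simp [div_self h0]

/-- A polynomial with no triple root vanishes at most quadratically. -/
theorem lower_at_root {f : ℂ[X]} (hf : f ≠ 0) (b : ℂ) (hm : f.rootMultiplicity b ≤ 2) :
    ∃ c > 0, ∀ᶠ x in 𝓝 b, c * ‖x - b‖ ^ 2 ≤ ‖f.eval x‖ := by
  obtain ⟨g, hg, hgb⟩ := exists_eq_pow_rootMultiplicity_mul_and_not_dvd f hf b
  have hg0 : g.eval b ≠ 0 := fun h => hgb (dvd_iff_isRoot.2 h)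
  have hgp : 0 < ‖g.eval b‖ := norm_pos_iff.2 hg0
  refine ⟨‖g.eval b‖ / 2, by positivity, ?_⟩
  have hc : Continuous fun x => ‖g.eval x‖ := g.continuous.norm
  have h1 : ∀ᶠ x in 𝓝 b, ‖g.eval b‖ / 2 < ‖g.eval x‖ :=
    hc.tendsto b |>.eventually (lt_mem_nhds (by linarith))
  have h2 : ∀ᶠ x in 𝓝 b, ‖x - b‖ < 1 := by
    have : Continuous fun x : ℂ => ‖x - b‖ := (continuous_id.sub continuous_const).norm
    exact this.tendsto b |>.eventually (gt_mem_nhds (by simp))
  filter_upwards [h1, h2] with x hx1 hx2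
  rw [hg, eval_mul, eval_pow, eval_sub, eval_X, eval_C, norm_mul, norm_pow, mul_comm]
  refine mul_le_mul ?_ hx1.le (by positivity) (by positivity)
  exact pow_le_pow_of_le_one (norm_nonneg _) hx2.le hm

/-- **A vector field on `y ^ 2 = f(x)` is zero** (`v x y` is the value of `D x` at the point
`(x, y)`). -/
theorem field_eq_zero (f : ℂ[X]) (hdeg : 5 ≤ f.natDegree) (hmult : ∀ b, f.rootMultiplicity b ≤ 2)
    (v : ℂ → ℂ → ℂ)
    (h1 : ∀ x₀, f.eval x₀ ≠ 0 → ∀ ρ : ℂ → ℂ, AnalyticAt ℂ ρ x₀ →
      (∀ᶠ x in 𝓝 x₀, ρ x ^ 2 = f.eval x) → DifferentiableAt ℂ (fun x => v x (ρ x)) x₀)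
    (h2 : ∀ b, f.eval b = 0 → ∀ ε > 0, ∀ᶠ x in 𝓝[≠] b, ∀ y, y ^ 2 = f.eval x → ‖v x y‖ ≤ ε)
    (h3 : ∃ C, ∀ᶠ x in cocompact ℂ, ∀ y, y ^ 2 = f.eval x → ‖v x y‖ ≤ C * ‖x‖ ^ 2) :
    ∀ x y, f.eval x ≠ 0 → y ^ 2 = f.eval x → v x y = 0 := by
  classical
  have hf : f ≠ 0 := by rintro rfl; simp at hdeg
  set Z : Finset ℂ := f.roots.toFinset with hZ
  have hZm : ∀ x, x ∈ Z ↔ f.eval x = 0 := by
    intro x; rw [hZ, Multiset.mem_toFinset, mem_roots hf]; rfl
  have hZc : 3 ≤ Z.card := by
    have hsp : f.Splits := IsAlgClosed.splits f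
    have hcard : Multiset.card f.roots = f.natDegree := (splits_iff_card_roots.1 hsp)
    have h4 : Multiset.card f.roots ≤ 2 * Z.card := by
      rw [← Multiset.toFinset_sum_count_eq, mul_comm, ← smul_eq_mul]
      refine Finset.sum_le_card_nsmul _ _ _ fun b _ => ?_
      rw [count_roots]
      exact hmult b
    omega
  -- the square root
  set r : ℂ → ℂ := fun x => (f.eval x) ^ (1 / 2 : ℂ) with hr
  have hr2 : ∀ x, r x ^ 2 = f.eval x := by
    intro x
    have := Complex.cpow_nat_inv_pow (f.eval x) (n := 2) two_ne_zero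
    simpa only [hr, one_div, Nat.cast_ofNat] using this
  have hr0 : ∀ x, f.eval x ≠ 0 → r x ≠ 0 := by
    intro x hx h0
    apply hx
    rw [← hr2, h0]; ring
  have hpm : ∀ x y z : ℂ, y ^ 2 = f.eval x → z ^ 2 = f.eval x → y = z ∨ y = -z := by
    intro x y z h4 h5
    exact sq_eq_sq_iff_eq_or_eq_neg.1 (h4.trans h5.symm)
  -- the symmetric part
  have hS : ∀ x, x ∉ Z → v x (r x) + v x (-r x) = 0 := by
    set P : ℂ[X] := ∏ b ∈ Z, (X - C b) with hP
    have hPe : ∀ x, P.eval x = ∏ b ∈ Z, (x - b) := by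
      intro x; rw [hP, eval_prod]; simp
    have hP0 : ∀ x, x ∉ Z → P.eval x ≠ 0 := by
      intro x hx
      rw [hPe, Finset.prod_ne_zero_iff]
      intro b hb h0
      exact hx (by rwa [sub_eq_zero.1 h0])
    have key := eq_zero_of_removable Z (fun x => (v x (r x) + v x (-r x)) / P.eval x) ?_ ?_ ?_
    · intro x hx
      have := key x hx
      rw [div_eq_zero_iff] at this
      exact this.resolve_right (hP0 x hx)
    · intro x₀ hx₀
      have h0 : f.eval x₀ ≠ 0 := fun h => hx₀ ((hZm x₀).2 h)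
      obtain ⟨ρ, hρa, hρ2, hρ0⟩ := exists_root h0 (hr2 x₀)
      have hd : DifferentiableAt ℂ (fun x => (v x (ρ x) + v x (-ρ x)) / P.eval x) x₀ := by
        refine DifferentiableAt.div ?_ P.differentiable.differentiableAt (hP0 x₀ hx₀)
        refine (h1 x₀ h0 ρ hρa (Eventually.of_forall hρ2)).add ?_
        exact h1 x₀ h0 (fun x => -ρ x) hρa.neg (Eventually.of_forall fun x => by
          rw [neg_sq, hρ2])
      refine hd.congr_of_eventuallyEq (Eventually.of_forall fun x => ?_)
      rcases hpm x (r x) (ρ x) (hr2 x) (hρ2 x) with h | h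
      · simp only [h]
      · simp only [h, neg_neg, add_comm]
    · intro b hb
      have hb0 := (hZm b).1 hb
      have hPb : ∀ x, P.eval x = (x - b) * ∏ c ∈ Z.erase b, (x - c) := by
        intro x; rw [hPe, ← Finset.mul_prod_erase Z _ hb]
      have hq : Continuous fun x : ℂ => ∏ c ∈ Z.erase b, (x - c) := by fun_prop
      have hqb : (∏ c ∈ Z.erase b, (b - c)) ≠ 0 := by
        rw [Finset.prod_ne_zero_iff]
        intro c hc h0
        exact (Finset.mem_erase.1 hc).1 (sub_eq_zero.1 h0).symm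
      have ht : Tendsto (fun x => v x (r x) + v x (-r x)) (𝓝[≠] b) (𝓝 0) := by
        rw [Metric.tendsto_nhds]
        intro ε hε
        filter_upwards [h2 b hb0 (ε / 4) (by positivity)] with x hx
        rw [dist_zero_right]
        have e1 := hx (r x) (hr2 x)
        have e2 := hx (-r x) (by rw [neg_sq, hr2])
        calc ‖v x (r x) + v x (-r x)‖ ≤ ‖v x (r x)‖ + ‖v x (-r x)‖ := norm_add_le _ _
          _ ≤ ε / 4 + ε / 4 := add_le_add e1 e2
          _ < ε := by linarith
      have ht2 := ht.div ((hq.tendsto b).mono_left nhdsWithin_le_nhds) hqb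
      rw [zero_div] at ht2
      refine ht2.congr' ?_
      filter_upwards [self_mem_nhdsWithin] with x hx
      have hxb : x - b ≠ 0 := sub_ne_zero.2 hx
      simp only [Pi.div_apply]
      rw [hPb]
      field_simp
    · obtain ⟨C, hC⟩ := h3
      have hPne : P ≠ 0 := by
        rw [hP]; exact Finset.prod_ne_zero_iff.2 fun b _ => X_sub_C_ne_zero b
      have hPdeg : 3 ≤ P.natDegree := by
        rw [hP, natDegree_prod_of_monic _ _ fun b _ => monic_X_sub_C b]
        simpa using hZc
      obtain ⟨c, hc, hcP⟩ := growth hPne hPdeg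
      have hb : ∀ᶠ x in cocompact ℂ,
          ‖(v x (r x) + v x (-r x)) / P.eval x‖ ≤ (2 * |C| / c) * ‖x‖⁻¹ := by
        have h1 : ∀ᶠ x in cocompact ℂ, (1 : ℝ) ≤ ‖x‖ :=
          (tendsto_norm_cocompact_atTop (E := ℂ)).eventually (eventually_ge_atTop _)
        filter_upwards [hC, hcP, h1] with x hx hxP hx1
        have e1 := hx (r x) (hr2 x)
        have e2 := hx (-r x) (by rw [neg_sq, hr2])
        have e3 : ‖v x (r x) + v x (-r x)‖ ≤ 2 * |C| * ‖x‖ ^ 2 := by
          refine (norm_add_le _ _).trans ((add_le_add e1 e2).trans ?_)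
          have : C * ‖x‖ ^ 2 ≤ |C| * ‖x‖ ^ 2 :=
            mul_le_mul_of_nonneg_right (le_abs_self _) (by positivity)
          linarith
        rw [norm_div, div_le_iff₀ (lt_of_lt_of_le (by positivity) hxP)]
        refine e3.trans ?_
        have e4 : 2 * |C| * ‖x‖ ^ 2 = (2 * |C| / c) * ‖x‖⁻¹ * (c * ‖x‖ ^ 3) := by
          field_simp
        rw [e4]
        exact mul_le_mul_of_nonneg_left hxP (by positivity)
      rw [tendsto_zero_iff_norm_tendsto_zero]
      refine squeeze_zero' (Eventually.of_forall fun x => norm_nonneg _) hb ?_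
      have := (tendsto_inv_atTop_zero.comp (tendsto_norm_cocompact_atTop (E := ℂ))).const_mul
        (2 * |C| / c)
      simpa using this
  -- the antisymmetric part
  have hT : ∀ x, x ∉ Z → (v x (r x) - v x (-r x)) / r x = 0 := by
    refine eq_zero_of_removable Z (fun x => (v x (r x) - v x (-r x)) / r x) ?_ ?_ ?_
    · intro x₀ hx₀
      have h0 : f.eval x₀ ≠ 0 := fun h => hx₀ ((hZm x₀).2 h)
      obtain ⟨ρ, hρa, hρ2, hρ0⟩ := exists_root h0 (hr2 x₀)
      have hd : DifferentiableAt ℂ (fun x => (v x (ρ x) - v x (-ρ x)) / ρ x) x₀ := by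
        refine DifferentiableAt.div ?_ hρa.differentiableAt (by rw [hρ0]; exact hr0 x₀ h0)
        refine (h1 x₀ h0 ρ hρa (Eventually.of_forall hρ2)).sub ?_
        exact h1 x₀ h0 (fun x => -ρ x) hρa.neg (Eventually.of_forall fun x => by
          rw [neg_sq, hρ2])
      refine hd.congr_of_eventuallyEq (Eventually.of_forall fun x => ?_)
      rcases hpm x (r x) (ρ x) (hr2 x) (hρ2 x) with h | h
      · simp only [h]
      · simp only [h, neg_neg]
        rw [div_neg, ← neg_div, neg_sub]
    · intro b hb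
      have hb0 := (hZm b).1 hb
      obtain ⟨c, hc, hcf⟩ := lower_at_root hf b (hmult b)
      rw [Metric.tendsto_nhds]
      intro ε hε
      have hs : 0 < Real.sqrt c := Real.sqrt_pos.2 hc
      filter_upwards [h2 b hb0 (ε * Real.sqrt c / 4) (by positivity),
        nhdsWithin_le_nhds hcf, self_mem_nhdsWithin] with x hx hxc hxb
      have hxb' : 0 < ‖x - b‖ := norm_pos_iff.2 (sub_ne_zero.2 hxb)
      rw [dist_zero_right, norm_mul, norm_div]
      have e1 := hx (r x) (hr2 x)
      have e2 := hx (-r x) (by rw [neg_sq, hr2])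
      have e3 : ‖v x (r x) - v x (-r x)‖ ≤ ε * Real.sqrt c / 2 := by
        refine (norm_sub_le _ _).trans ((add_le_add e1 e2).trans (by linarith))
      have e4 : Real.sqrt c * ‖x - b‖ ≤ ‖r x‖ := by
        have e5 : ‖r x‖ ^ 2 = ‖f.eval x‖ := by rw [← norm_pow, hr2]
        refine le_of_sq_le_sq ?_ (norm_nonneg _)
        rw [e5, mul_pow, Real.sq_sqrt hc.le]
        exact hxc
      have e6 : 0 < ‖r x‖ := lt_of_lt_of_le (by positivity) e4
      rw [← mul_div_assoc, div_lt_iff₀ e6]
      calc ‖x - b‖ * ‖v x (r x) - v x (-r x)‖ ≤ ‖x - b‖ * (ε * Real.sqrt c / 2) :=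
            mul_le_mul_of_nonneg_left e3 hxb'.le
        _ = ε / 2 * (Real.sqrt c * ‖x - b‖) := by ring
        _ ≤ ε / 2 * ‖r x‖ := mul_le_mul_of_nonneg_left e4 (by positivity)
        _ < ε * ‖r x‖ := mul_lt_mul_of_pos_right (by linarith) e6
    · obtain ⟨C, hC⟩ := h3
      obtain ⟨c, hc, hcP⟩ := growth hf hdeg
      have hs : 0 < Real.sqrt c := Real.sqrt_pos.2 hc
      have hb : ∀ᶠ x in cocompact ℂ,
          ‖(v x (r x) - v x (-r x)) / r x‖ ^ 2 ≤ (4 * C ^ 2 / c) * ‖x‖⁻¹ := by
        have h1 : ∀ᶠ x in cocompact ℂ, (1 : ℝ) ≤ ‖x‖ :=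
          (tendsto_norm_cocompact_atTop (E := ℂ)).eventually (eventually_ge_atTop _)
        filter_upwards [hC, hcP, h1] with x hx hxP hx1
        have e1 := hx (r x) (hr2 x)
        have e2 := hx (-r x) (by rw [neg_sq, hr2])
        have e3 : ‖v x (r x) - v x (-r x)‖ ≤ 2 * C * ‖x‖ ^ 2 := by
          refine (norm_sub_le _ _).trans ((add_le_add e1 e2).trans (by linarith))
        have e5 : ‖r x‖ ^ 2 = ‖f.eval x‖ := by rw [← norm_pow, hr2]
        rw [norm_div, div_pow, e5, div_le_iff₀ (lt_of_lt_of_le (by positivity) hxP)]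
        have e7 : ‖v x (r x) - v x (-r x)‖ ^ 2 ≤ (2 * C * ‖x‖ ^ 2) ^ 2 :=
          pow_le_pow_left₀ (norm_nonneg _) e3 2
        refine e7.trans ?_
        have e4 : (2 * C * ‖x‖ ^ 2) ^ 2 = (4 * C ^ 2 / c) * ‖x‖⁻¹ * (c * ‖x‖ ^ 5) := by
          field_simp
          ring
        rw [e4]
        exact mul_le_mul_of_nonneg_left hxP (by positivity)
      have h7 : Tendsto (fun x => ‖(v x (r x) - v x (-r x)) / r x‖ ^ 2) (cocompact ℂ) (𝓝 0) := by
        refine squeeze_zero' (Eventually.of_forall fun x => by positivity) hb ?_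
        have := (tendsto_inv_atTop_zero.comp (tendsto_norm_cocompact_atTop (E := ℂ))).const_mul
          (4 * C ^ 2 / c)
        simpa using this
      rw [tendsto_zero_iff_norm_tendsto_zero]
      have h8 := h7.sqrt
      rw [Real.sqrt_zero] at h8
      refine h8.congr fun x => ?_
      rw [Real.sqrt_sq (norm_nonneg _)]
  intro x y hx hy
  have hxZ : x ∉ Z := fun h => hx ((hZm x).1 h)
  have hs := hS x hxZ
  have ht := hT x hxZ
  rw [div_eq_zero_iff] at ht
  have ht := ht.resolve_right (hr0 x hx)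
  have h9 : v x (r x) = 0 := by linear_combination (hs + ht) / 2
  have h10 : v x (-r x) = 0 := by linear_combination (hs - ht) / 2
  rcases hpm x y (r x) hy (hr2 x) with h | h
  · rw [h, h9]
  · rw [h, h10]

end Vale.Agent.P273.H724
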