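import Vale.Agent.P273.H183.Chart

/-!
Holomorphic vector fields on the fibres of a family: chain rule, continuity, nodes.
-/

noncomputable section

namespace Vale.Agent.P273.H724

open Set Filter H183
open scoped Topology

section Amb

variable {X : Type} [TopologicalSpace X] {m : ℕ} {π : X → Fin m → ℂ}
  {hol : (X → ℂ) → X → Prop} {O : Set X} {α β : X → ℂ} {Z : Set ((Fin m → ℂ) × ℂ × ℂ)}

/-- A chart is an ambient chart. -/
theorem isAmb_of_isChart {U : Set X} {x y : X → ℂ} {t : (Fin m → ℂ) → ℂ}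
    (h : IsChart π hol U x y t) : IsAmb π hol U x y {w | w.2.1 * w.2.2 = t w.1} :=
  ⟨h.1, h.2.2.1, h.2.2.2.1, h.2.2.2.2⟩

/-- The coordinates are continuous. -/
theorem amb_cont (h : IsAmb π hol O α β Z) {p : X} (hp : p ∈ O) :
    ContinuousAt (fun q => (π q, α q, β q)) p := by
  rw [ContinuousAt, tendsto_nhds]
  intro S hS hpS
  filter_upwards [(h.isOpen_inter hS).mem_nhds ⟨hp, hpS⟩] with q hq using hq.2

/-- Holomorphic functions are continuous. -/
theorem amb_hol_cont (h : IsAmb π hol O α β Z) {p : X} (hp : p ∈ O) {f : X → ℂ} (hf : hol f p) :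
    ContinuousAt f p := by
  obtain ⟨g, hg, he⟩ := (h.hol_iff p hp f).1 hf
  have h1 : ContinuousAt (fun q => g (π q, α q, β q)) p :=
    ContinuousAt.comp (f := fun q => (π q, α q, β q)) (g := g) hg.continuousAt (amb_cont h hp)
  exact h1.congr (he.mono fun q hq => hq.symm)

/-- Analytic functions of holomorphic functions are holomorphic. -/
theorem amb_hol_comp (h : IsAmb π hol O α β Z) {p : X} (hp : p ∈ O) {f : X → ℂ} (hf : hol f p)
    {F : ℂ → ℂ} (hF : AnalyticAt ℂ F (f p)) : hol (fun q => F (f q)) p := by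
  obtain ⟨g, hg, he⟩ := (h.hol_iff p hp f).1 hf
  have h0 : f p = g (π p, α p, β p) := he.self_of_nhds
  refine (h.hol_iff p hp _).2 ⟨fun z => F (g z), ?_, ?_⟩
  · rw [h0] at hF
    exact AnalyticAt.comp (g := F) (f := g) (x := (π p, α p, β p)) hF hg
  · exact he.mono fun q hq => by rw [hq]

theorem amb_hol_const (h : IsAmb π hol O α β Z) {p : X} (hp : p ∈ O) (c : ℂ) :
    hol (fun _ => c) p :=
  (h.hol_iff p hp _).2 ⟨fun _ => c, analyticAt_const, Eventually.of_forall fun _ => rfl⟩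

theorem amb_hol_add (h : IsAmb π hol O α β Z) {p : X} (hp : p ∈ O) {f g : X → ℂ} (hf : hol f p)
    (hg : hol g p) : hol (f + g) p := by
  obtain ⟨F, hF, he⟩ := (h.hol_iff p hp f).1 hf
  obtain ⟨G, hG, he'⟩ := (h.hol_iff p hp g).1 hg
  exact (h.hol_iff p hp _).2 ⟨F + G, hF.add hG, (he.and he').mono fun q hq => by
    simp only [Pi.add_apply, hq.1, hq.2]⟩

theorem amb_hol_mul (h : IsAmb π hol O α β Z) {p : X} (hp : p ∈ O) {f g : X → ℂ} (hf : hol f p)
    (hg : hol g p) : hol (f * g) p := by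
  obtain ⟨F, hF, he⟩ := (h.hol_iff p hp f).1 hf
  obtain ⟨G, hG, he'⟩ := (h.hol_iff p hp g).1 hg
  exact (h.hol_iff p hp _).2 ⟨F * G, hF.mul hG, (he.and he').mono fun q hq => by
    simp only [Pi.mul_apply, hq.1, hq.2]⟩

theorem amb_hol_fst (h : IsAmb π hol O α β Z) {p : X} (hp : p ∈ O) : hol α p :=
  (h.hol_iff p hp _).2 ⟨fun z => z.2.1, analyticAt_fst.comp analyticAt_snd,
    Eventually.of_forall fun _ => rfl⟩

theorem amb_hol_snd (h : IsAmb π hol O α β Z) {p : X} (hp : p ∈ O) : hol β p :=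
  (h.hol_iff p hp _).2 ⟨fun z => z.2.2, analyticAt_snd.comp analyticAt_snd,
    Eventually.of_forall fun _ => rfl⟩

/-- Holomorphy is an open condition. -/
theorem amb_hol_eventually (h : IsAmb π hol O α β Z) {p : X} (hp : p ∈ O) {f : X → ℂ}
    (hf : hol f p) : ∀ᶠ q in 𝓝 p, hol f q := by
  obtain ⟨g, hg, he⟩ := (h.hol_iff p hp f).1 hf
  have h1 : ∀ᶠ q in 𝓝 p, AnalyticAt ℂ g (π q, α q, β q) :=
    (amb_cont h hp).eventually hg.eventually_analyticAt
  filter_upwards [h1, he.eventually_nhds, h.op.mem_nhds hp] with q hq1 hq2 hq3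
  exact (h.hol_iff q hq3 f).2 ⟨g, hq1, hq2⟩

end Amb

variable {L : Type} {m : ℕ} {C : Fam L m} {b : Fin m → ℂ} {D : (C.X → ℂ) → C.X → ℂ}
  {O : Set C.X} {α β : C.X → ℂ} {Z : Set ((Fin m → ℂ) × ℂ × ℂ)} {p : C.X}

theorem field_add (hD : C.IsField b D) (hp : p ∈ C.fib b) {f g : C.X → ℂ} (hf : C.hol f p)
    (hg : C.hol g p) : D (f + g) p = D f p + D g p := (hD.1 p hp f g hf hg).1

theorem field_mul (hD : C.IsField b D) (hp : p ∈ C.fib b) {f g : C.X → ℂ} (hf : C.hol f p)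
    (hg : C.hol g p) : D (f * g) p = f p * D g p + g p * D f p := (hD.1 p hp f g hf hg).2.1

theorem field_congr (hD : C.IsField b D) (hp : p ∈ C.fib b) {f g : C.X → ℂ} (hf : C.hol f p)
    (hg : C.hol g p) (h : f =ᶠ[𝓝[C.fib b] p] g) : D f p = D g p := (hD.1 p hp f g hf hg).2.2.1 h

theorem field_hol (hD : C.IsField b D) (hp : p ∈ C.fib b) {f : C.X → ℂ} (hf : C.hol f p) :
    ∃ h, C.hol h p ∧ D f =ᶠ[𝓝[C.fib b] p] h := (hD.1 p hp f f hf hf).2.2.2

theorem field_const (hD : C.IsField b D) (hp : p ∈ C.fib b) (c : ℂ) : D (fun _ => c) p = 0 :=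
  hD.2.1 p hp c

/-- `D f` is continuous along the fibre. -/
theorem field_cont (hD : C.IsField b D) (hA : IsAmb C.π C.hol O α β Z) (hpO : p ∈ O)
    (hp : p ∈ C.fib b) {f : C.X → ℂ} (hf : C.hol f p) : ContinuousWithinAt (D f) (C.fib b) p := by
  obtain ⟨h, hh, he⟩ := field_hol hD hp hf
  exact (amb_hol_cont hA hpO hh).continuousWithinAt.congr_of_eventuallyEq he
    (he.self_of_nhdsWithin hp)

/-- If `D f` vanishes at points arbitrarily close to `p`, then it vanishes at `p`. -/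
theorem field_zero_of_frequently (hD : C.IsField b D) (hA : IsAmb C.π C.hol O α β Z)
    (hpO : p ∈ O) (hp : p ∈ C.fib b) {f : C.X → ℂ} (hf : C.hol f p)
    (h : ∃ᶠ q in 𝓝[C.fib b] p, D f q = 0) : D f p = 0 := by
  by_contra hne
  have h1 : ∀ᶠ q in 𝓝[C.fib b] p, D f q ≠ 0 :=
    (field_cont hD hA hpO hp hf).eventually_ne hne
  exact h (h1.mono fun q hq => hq)

/-- **Chain rule.** If `f = F(α)` on the fibre near `p`, then `D f = F'(α) D α`. -/
theorem field_comp (hD : C.IsField b D) (hA : IsAmb C.π C.hol O α β Z) (hpO : p ∈ O)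
    (hp : p ∈ C.fib b) {f γ : C.X → ℂ} (hf : C.hol f p) (hγ : C.hol γ p) {F : ℂ → ℂ}
    (hF : AnalyticAt ℂ F (γ p)) (he : ∀ᶠ q in 𝓝[C.fib b] p, f q = F (γ q)) :
    D f p = deriv F (γ p) * D γ p := by
  set a := γ p with ha
  have hF1 : AnalyticAt ℂ (dslope F a) a := by
    obtain ⟨s, hs⟩ := hF
    exact ⟨_, hs.has_fpower_series_dslope_fslope⟩
  have hh1 : C.hol (fun q => dslope F a (γ q)) p := amb_hol_comp hA hpO hγ (by rw [← ha]; exact hF1)
  have hh2 : C.hol (γ + fun _ => -a) p := amb_hol_add hA hpO hγ (amb_hol_const hA hpO _)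
  have hh3 : C.hol ((γ + fun _ => -a) * fun q => dslope F a (γ q)) p :=
    amb_hol_mul hA hpO hh2 hh1
  have hc : C.hol (fun _ => F a) p := amb_hol_const hA hpO _
  have e1 : D f p = D ((fun _ => F a) + (γ + fun _ => -a) * fun q => dslope F a (γ q)) p := by
    refine field_congr hD hp hf (amb_hol_add hA hpO hc hh3) ?_
    filter_upwards [he] with q hq
    rw [hq]
    simp only [Pi.add_apply, Pi.mul_apply]
    have := sub_smul_dslope F a (γ q)
    rw [smul_eq_mul] at this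
    linear_combination -this
  rw [e1, field_add hD hp hc hh3, field_const hD hp, field_mul hD hp hh2 hh1,
    field_add hD hp hγ (amb_hol_const hA hpO _), field_const hD hp]
  simp only [Pi.add_apply, ← ha, dslope_same]
  ring

/-- The coordinates of a chart satisfy `x D y + y D x = 0` on the fibre. -/
theorem chart_rel (hD : C.IsField b D) {U : Set C.X} {x y : C.X → ℂ} {t : (Fin m → ℂ) → ℂ}
    (h : IsChart C.π C.hol U x y t) (hpU : p ∈ U) (hp : p ∈ C.fib b) :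
    x p * D y p + y p * D x p = 0 := by
  have hA := isAmb_of_isChart h
  have hx := amb_hol_fst hA hpU
  have hy := amb_hol_snd hA hpU
  have hrel : ∀ q ∈ U, x q * y q = t (C.π q) := by
    intro q hq
    obtain ⟨W, hW, e⟩ := (hA.img U subset_rfl).1 hA.op
    have : (C.π q, x q, y q) ∈ W ∩ {w : (Fin m → ℂ) × ℂ × ℂ | w.2.1 * w.2.2 = t w.1} := by
      rw [← e]; exact ⟨q, hq, rfl⟩
    exact this.2
  rw [← field_mul hD hp hx hy]
  have : D (x * y) p = D (fun _ => t b) p := by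
    refine field_congr hD hp (amb_hol_mul hA hpU hx hy) (amb_hol_const hA hpU _) ?_
    filter_upwards [self_mem_nhdsWithin, nhdsWithin_le_nhds (h.1.mem_nhds hpU)] with q hq hqU
    simp only [Pi.mul_apply, hrel q hqU]
    rw [show C.π q = b from hq]
  rw [this, field_const hD hp]

/-- Near a node there are points of the fibre on the branch `y = 0`, and on the branch `x = 0`. -/
theorem exists_branch {U : Set C.X} {x y : C.X → ℂ} {t : (Fin m → ℂ) → ℂ}
    (h : IsChart C.π C.hol U x y t) (hpU : p ∈ U) (hp : p ∈ C.fib b) (hx : x p = 0)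
    (hy : y p = 0) :
    (∃ᶠ q in 𝓝[C.fib b] p, q ∈ U ∧ y q = 0 ∧ x q ≠ 0) ∧
      ∃ᶠ q in 𝓝[C.fib b] p, q ∈ U ∧ x q = 0 ∧ y q ≠ 0 := by
  have hA := isAmb_of_isChart h
  have hπ : C.π p = b := hp
  have ht : t b = 0 := by
    obtain ⟨W, hW, e⟩ := (hA.img U subset_rfl).1 hA.op
    have : (C.π p, x p, y p) ∈ W ∩ {w : (Fin m → ℂ) × ℂ × ℂ | w.2.1 * w.2.2 = t w.1} := by
      rw [← e]; exact ⟨p, hpU, rfl⟩
    have h2 := this.2
    simp only [Set.mem_ofPred_eq, hx, hy, hπ, mul_zero] at h2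
    exact h2.symm
  have key : ∀ V ∈ 𝓝 p, ∀ᶠ ε in 𝓝 (0 : ℂ),
      (∃ q ∈ V, q ∈ U ∧ C.π q = b ∧ x q = ε ∧ y q = 0) ∧
      ∃ q ∈ V, q ∈ U ∧ C.π q = b ∧ x q = 0 ∧ y q = ε := by
    intro V hV
    obtain ⟨T, hTV, hTo, hpT⟩ := mem_nhds_iff.1 hV
    obtain ⟨W, hW, e⟩ := (hA.img (T ∩ U) inter_subset_right).1 (hTo.inter h.1)
    have hW0 : ((b, (0 : ℂ), (0 : ℂ)) : (Fin m → ℂ) × ℂ × ℂ) ∈ W := by
      have : (C.π p, x p, y p) ∈ W ∩ {w : (Fin m → ℂ) × ℂ × ℂ | w.2.1 * w.2.2 = t w.1} := by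
        rw [← e]; exact ⟨p, ⟨hpT, hpU⟩, rfl⟩
      have h2 := this.1
      rwa [hx, hy, hπ] at h2
    have c1 : Continuous fun ε : ℂ => ((b, ε, (0 : ℂ)) : (Fin m → ℂ) × ℂ × ℂ) := by fun_prop
    have c2 : Continuous fun ε : ℂ => ((b, (0 : ℂ), ε) : (Fin m → ℂ) × ℂ × ℂ) := by fun_prop
    filter_upwards [(hW.preimage c1).mem_nhds hW0, (hW.preimage c2).mem_nhds hW0] with ε h1 h2
    constructor
    · have : ((b, ε, (0 : ℂ)) : (Fin m → ℂ) × ℂ × ℂ) ∈
          (fun q => (C.π q, x q, y q)) '' (T ∩ U) := by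
        rw [e]; exact ⟨h1, by simp [ht]⟩
      obtain ⟨q, hq, he⟩ := this
      simp only [Prod.mk.injEq] at he
      exact ⟨q, hTV hq.1, hq.2, he.1, he.2.1, he.2.2⟩
    · have : ((b, (0 : ℂ), ε) : (Fin m → ℂ) × ℂ × ℂ) ∈
          (fun q => (C.π q, x q, y q)) '' (T ∩ U) := by
        rw [e]; exact ⟨h2, by simp [ht]⟩
      obtain ⟨q, hq, he⟩ := this
      simp only [Prod.mk.injEq] at he
      exact ⟨q, hTV hq.1, hq.2, he.1, he.2.1, he.2.2⟩
  constructor
  · rw [frequently_iff]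
    intro S hS
    obtain ⟨V, hV, hVS⟩ := mem_nhdsWithin_iff_exists_mem_nhds_inter.1 hS
    have hev := (key V hV).and_frequently (f := 𝓝 (0 : ℂ)) (frequently_iff.2 fun {T} hT => by
      obtain ⟨z, hz⟩ := (mem_closure_iff_nhds.1 (by
        rw [closure_compl_singleton (0 : ℂ)]; trivial : (0 : ℂ) ∈ closure {(0 : ℂ)}ᶜ) T hT)
      exact ⟨z, hz.1, hz.2⟩ : ∃ᶠ ε in 𝓝 (0 : ℂ), ε ∈ ({0}ᶜ : Set ℂ))
    obtain ⟨ε, ⟨⟨q, hqV, hqU, hqb, hqx, hqy⟩, -⟩, hε⟩ := hev.exists
    exact ⟨q, hVS ⟨hqV, hqb⟩, hqU, hqy, by rw [hqx]; exact hε⟩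
  · rw [frequently_iff]
    intro S hS
    obtain ⟨V, hV, hVS⟩ := mem_nhdsWithin_iff_exists_mem_nhds_inter.1 hS
    have hev := (key V hV).and_frequently (f := 𝓝 (0 : ℂ)) (frequently_iff.2 fun {T} hT => by
      obtain ⟨z, hz⟩ := (mem_closure_iff_nhds.1 (by
        rw [closure_compl_singleton (0 : ℂ)]; trivial : (0 : ℂ) ∈ closure {(0 : ℂ)}ᶜ) T hT)
      exact ⟨z, hz.1, hz.2⟩ : ∃ᶠ ε in 𝓝 (0 : ℂ), ε ∈ ({0}ᶜ : Set ℂ))
    obtain ⟨ε, ⟨-, ⟨q, hqV, hqU, hqb, hqx, hqy⟩⟩, hε⟩ := hev.exists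
    exact ⟨q, hVS ⟨hqV, hqb⟩, hqU, hqx, by rw [hqy]; exact hε⟩

/-- **A vector field vanishes at the nodes.** -/
theorem node_zero (hD : C.IsField b D) {U : Set C.X} {x y : C.X → ℂ} {t : (Fin m → ℂ) → ℂ}
    (h : IsChart C.π C.hol U x y t) (hpU : p ∈ U) (hp : p ∈ C.fib b) (hx : x p = 0)
    (hy : y p = 0) : D x p = 0 ∧ D y p = 0 := by
  have hA := isAmb_of_isChart h
  obtain ⟨h1, h2⟩ := exists_branch h hpU hp hx hy
  constructor
  · refine field_zero_of_frequently hD hA hpU hp (amb_hol_fst hA hpU) ?_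
    refine (h2.and_eventually self_mem_nhdsWithin).mono fun q hq => ?_
    have := chart_rel hD h hq.1.1 hq.2
    rw [hq.1.2.1, zero_mul, zero_add] at this
    exact (mul_eq_zero.1 this).resolve_left hq.1.2.2
  · refine field_zero_of_frequently hD hA hpU hp (amb_hol_snd hA hpU) ?_
    refine (h1.and_eventually self_mem_nhdsWithin).mono fun q hq => ?_
    have := chart_rel hD h hq.1.1 hq.2
    rw [hq.1.2.1, zero_mul, add_zero] at this
    exact (mul_eq_zero.1 this).resolve_left hq.1.2.2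

/-- The equation of a chart. -/
theorem chart_eq {U : Set C.X} {x y : C.X → ℂ} {t : (Fin m → ℂ) → ℂ}
    (h : IsChart C.π C.hol U x y t) {q : C.X} (hq : q ∈ U) : x q * y q = t (C.π q) := by
  have hA := isAmb_of_isChart h
  obtain ⟨W, hW, e⟩ := (hA.img U subset_rfl).1 hA.op
  have : (C.π q, x q, y q) ∈ W ∩ {w : (Fin m → ℂ) × ℂ × ℂ | w.2.1 * w.2.2 = t w.1} := by
    rw [← e]; exact ⟨q, hq, rfl⟩
  exact this.2

/-- Chain rule in a chart, where `x` is a coordinate of the fibre. -/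
theorem chain_fst (hD : C.IsField b D) {U : Set C.X} {x y : C.X → ℂ} {t : (Fin m → ℂ) → ℂ}
    (h : IsChart C.π C.hol U x y t) (hpU : p ∈ U) (hp : p ∈ C.fib b) (hx : x p ≠ 0)
    {f : C.X → ℂ} {g : (Fin m → ℂ) × ℂ × ℂ → ℂ} (hg : AnalyticAt ℂ g (C.π p, x p, y p))
    (he : ∀ᶠ q in 𝓝 p, f q = g (C.π q, x q, y q)) :
    D f p = deriv (fun z => g (b, z, t b / z)) (x p) * D x p := by
  have hA := isAmb_of_isChart h
  have hf : C.hol f p := (hA.hol_iff p hpU f).2 ⟨g, hg, he⟩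
  have hπ : C.π p = b := hp
  have hyp : y p = t b / x p := by
    rw [eq_div_iff hx, mul_comm, chart_eq h hpU, hπ]
  refine field_comp hD hA hpU hp hf (amb_hol_fst hA hpU) ?_ ?_
  · have h1 : AnalyticAt ℂ (fun z : ℂ => ((b, z, t b / z) : (Fin m → ℂ) × ℂ × ℂ)) (x p) :=
      analyticAt_const.prod (analyticAt_id.prod (analyticAt_const.div analyticAt_id hx))
    refine AnalyticAt.comp (g := g) (f := fun z : ℂ => ((b, z, t b / z) : (Fin m → ℂ) × ℂ × ℂ))
      (x := x p) ?_ h1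
    rw [← hyp, ← hπ]
    exact hg
  · have hx' : ∀ᶠ q in 𝓝 p, x q ≠ 0 :=
      (amb_hol_cont hA hpU (amb_hol_fst hA hpU)).eventually_ne hx
    filter_upwards [self_mem_nhdsWithin, nhdsWithin_le_nhds he,
      nhdsWithin_le_nhds (h.1.mem_nhds hpU), nhdsWithin_le_nhds hx'] with q hq1 hq2 hq3 hq4
    have hπq : C.π q = b := hq1
    have hyq : y q = t b / x q := by
      rw [eq_div_iff hq4, mul_comm, chart_eq h hq3, hπq]
    rw [hq2, hπq, hyq]

/-- Chain rule in a chart, where `y` is a coordinate of the fibre. -/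
theorem chain_snd (hD : C.IsField b D) {U : Set C.X} {x y : C.X → ℂ} {t : (Fin m → ℂ) → ℂ}
    (h : IsChart C.π C.hol U x y t) (hpU : p ∈ U) (hp : p ∈ C.fib b) (hy : y p ≠ 0)
    {f : C.X → ℂ} {g : (Fin m → ℂ) × ℂ × ℂ → ℂ} (hg : AnalyticAt ℂ g (C.π p, x p, y p))
    (he : ∀ᶠ q in 𝓝 p, f q = g (C.π q, x q, y q)) :
    D f p = deriv (fun z => g (b, t b / z, z)) (y p) * D y p := by
  have hA := isAmb_of_isChart h
  have hf : C.hol f p := (hA.hol_iff p hpU f).2 ⟨g, hg, he⟩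
  have hπ : C.π p = b := hp
  have hyp : x p = t b / y p := by
    rw [eq_div_iff hy, chart_eq h hpU, hπ]
  refine field_comp hD hA hpU hp hf (amb_hol_snd hA hpU) ?_ ?_
  · have h1 : AnalyticAt ℂ (fun z : ℂ => ((b, t b / z, z) : (Fin m → ℂ) × ℂ × ℂ)) (y p) :=
      analyticAt_const.prod ((analyticAt_const.div analyticAt_id hy).prod analyticAt_id)
    refine AnalyticAt.comp (g := g) (f := fun z : ℂ => ((b, t b / z, z) : (Fin m → ℂ) × ℂ × ℂ))
      (x := y p) ?_ h1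
    rw [← hyp, ← hπ]
    exact hg
  · have hx' : ∀ᶠ q in 𝓝 p, y q ≠ 0 :=
      (amb_hol_cont hA hpU (amb_hol_snd hA hpU)).eventually_ne hy
    filter_upwards [self_mem_nhdsWithin, nhdsWithin_le_nhds he,
      nhdsWithin_le_nhds (h.1.mem_nhds hpU), nhdsWithin_le_nhds hx'] with q hq1 hq2 hq3 hq4
    have hπq : C.π q = b := hq1
    have hyq : x q = t b / y q := by
      rw [eq_div_iff hq4, chart_eq h hq3, hπq]
    rw [hq2, hπq, hyq]

/-- All derivatives vanish at a node. -/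
theorem node_zero_all (hD : C.IsField b D) {U : Set C.X} {x y : C.X → ℂ}
    {t : (Fin m → ℂ) → ℂ} (h : IsChart C.π C.hol U x y t) (hpU : p ∈ U) (hp : p ∈ C.fib b)
    (hx : x p = 0) (hy : y p = 0) {f : C.X → ℂ} (hf : C.hol f p) : D f p = 0 := by
  have hA := isAmb_of_isChart h
  obtain ⟨g, hg, he⟩ := (hA.hol_iff p hpU f).1 hf
  have hπ : C.π p = b := hp
  have ht : t b = 0 := by rw [← hπ, ← chart_eq h hpU, hx, zero_mul]
  rw [hx, hy, hπ] at hg
  have hgan : AnalyticAt ℂ (fun z : ℂ => g (b, z, 0)) 0 := by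
    have h1 : AnalyticAt ℂ (fun z : ℂ => ((b, z, 0) : (Fin m → ℂ) × ℂ × ℂ)) 0 :=
      analyticAt_const.prod (analyticAt_id.prod analyticAt_const)
    exact AnalyticAt.comp (g := g) (f := fun z : ℂ => ((b, z, 0) : (Fin m → ℂ) × ℂ × ℂ))
      (x := 0) hg h1
  obtain ⟨h1, -⟩ := exists_branch h hpU hp hx hy
  have hgev : ∀ᶠ q in 𝓝 p, AnalyticAt ℂ g (C.π q, x q, y q) := by
    have := amb_cont hA hpU
    refine this.eventually ?_
    change ∀ᶠ z in 𝓝 ((C.π p, x p, y p) : (Fin m → ℂ) × ℂ × ℂ), AnalyticAt ℂ g z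
    rw [hx, hy, hπ]
    exact hg.eventually_analyticAt
  -- on the branch `y = 0` we have `D f = F'(x) D x`
  have hev : ∀ᶠ q in 𝓝[C.fib b] p, q ∈ U → y q = 0 → x q ≠ 0 →
      D f q = deriv (fun z => g (b, z, 0)) (x q) * D x q := by
    filter_upwards [self_mem_nhdsWithin, nhdsWithin_le_nhds he.eventually_nhds,
      nhdsWithin_le_nhds hgev] with q hq1 hq2 hq3 hqU hqy hqx
    have := chain_fst hD h hqU hq1 hqx hq3 hq2
    rw [this, ht]
    simp only [zero_div]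
  by_contra hne
  -- `D f` stays away from zero, but `F'(x) D x` tends to zero
  have hc1 : ContinuousWithinAt (fun q => deriv (fun z => g (b, z, 0)) (x q) * D x q)
      (C.fib b) p := by
    refine ContinuousWithinAt.mul ?_ (field_cont hD hA hpU hp (amb_hol_fst hA hpU))
    have h2 : ContinuousAt (deriv fun z : ℂ => g (b, z, 0)) (x p) := by
      rw [hx]; exact hgan.deriv.continuousAt
    exact (ContinuousAt.comp (f := x) (g := deriv fun z : ℂ => g (b, z, 0)) h2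
      (amb_hol_cont hA hpU (amb_hol_fst hA hpU))).continuousWithinAt
  have hc2 := field_cont hD hA hpU hp hf
  have hz : (fun q => deriv (fun z => g (b, z, 0)) (x q) * D x q) p = 0 := by
    simp only [(node_zero hD h hpU hp hx hy).1, mul_zero]
  have hd : ∀ᶠ q in 𝓝[C.fib b] p,
      D f q - deriv (fun z => g (b, z, 0)) (x q) * D x q ≠ 0 := by
    refine (hc2.sub hc1).eventually_ne ?_
    change D f p - (fun q => deriv (fun z => g (b, z, 0)) (x q) * D x q) p ≠ 0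
    rw [hz, sub_zero]
    exact hne
  obtain ⟨q, ⟨⟨hqU, hqy, hqx⟩, hq2⟩, hq3⟩ := ((h1.and_eventually hd).and_eventually hev).exists
  exact hq2 (by rw [hq3 hqU hqy hqx, sub_self])

/-- If `D` vanishes on the two functions of a chart at a point, then it vanishes at this point. -/
theorem field_zero_of_chart (hD : C.IsField b D) {U : Set C.X} {x y : C.X → ℂ}
    {t : (Fin m → ℂ) → ℂ} (h : IsChart C.π C.hol U x y t) (hpU : p ∈ U) (hp : p ∈ C.fib b)
    (h1 : D x p = 0) (h2 : D y p = 0) {f : C.X → ℂ} (hf : C.hol f p) : D f p = 0 := by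
  have hA := isAmb_of_isChart h
  obtain ⟨g, hg, he⟩ := (hA.hol_iff p hpU f).1 hf
  by_cases hx : x p = 0
  · by_cases hy : y p = 0
    · exact node_zero_all hD h hpU hp hx hy hf
    · rw [chain_snd hD h hpU hp hy hg he, h2, mul_zero]
  · rw [chain_fst hD h hpU hp hx hg he, h1, mul_zero]

/-- It is enough to know that `D` vanishes on a dense part of the fibre near `p`. -/
theorem field_zero_of_dense (hD : C.IsField b D) (hA : IsAmb C.π C.hol O α β Z) (hpO : p ∈ O)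
    (hp : p ∈ C.fib b) {S : Set C.X} (hS : ∃ᶠ q in 𝓝[C.fib b] p, q ∈ S)
    (h : ∀ q ∈ S, q ∈ C.fib b → ∀ f, C.hol f q → D f q = 0) {f : C.X → ℂ} (hf : C.hol f p) :
    D f p = 0 := by
  refine field_zero_of_frequently hD hA hpO hp hf ?_
  refine ((hS.and_eventually self_mem_nhdsWithin).and_eventually
    (nhdsWithin_le_nhds (amb_hol_eventually hA hpO hf))).mono fun q hq => ?_
  exact h q hq.1.1 hq.1.2 f hq.2

end Vale.Agent.P273.H724
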