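import Vale.Agent.P273.H183.Start
import Vale.Agent.P273.H724.Core
import Vale.Agent.P273.H724.Field

/-!
The curves `y ^ 2 = f(x)`, `f` a monic sextic without triple roots, have no vector fields.
-/

noncomputable section

namespace Vale.Agent.P273.H724

open Set Filter H183 Polynomial
open scoped Topology

/-- The monic sextic as a polynomial. -/
def pol (a : Fin 6 → ℂ) : ℂ[X] :=
  X ^ 6 + Polynomial.C (a 5) * X ^ 5 + Polynomial.C (a 4) * X ^ 4 + Polynomial.C (a 3) * X ^ 3 +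
    Polynomial.C (a 2) * X ^ 2 + Polynomial.C (a 1) * X + Polynomial.C (a 0)

theorem pol_eval (a : Fin 6 → ℂ) (x : ℂ) : (pol a).eval x = sx a x := by
  simp [pol, sx]

theorem pol_natDegree (a : Fin 6 → ℂ) : (pol a).natDegree = 6 := by
  unfold pol
  compute_degree!

theorem pol_mult {a : Fin 6 → ℂ} (ha : a ∈ K6) (c : ℂ) : (pol a).rootMultiplicity c ≤ 2 := by
  by_contra hcon
  have h3 : 3 ≤ (pol a).rootMultiplicity c := by omega
  have hne : pol a ≠ 0 := by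
    intro h
    have := pol_natDegree a
    rw [h] at this
    simp at this
  have hd : (X - Polynomial.C c) ^ 3 ∣ pol a := (le_rootMultiplicity_iff hne).1 h3
  obtain ⟨q, hq⟩ := hd
  have e : ∀ x, sx a x = (x - c) ^ 3 * q.eval x := by
    intro x
    rw [← pol_eval, hq]
    simp
  have h0 : sx a c = 0 := by rw [e c]; ring
  have key : ∀ x, x ≠ c → sx1 a c + hx a c x * (x - c) = (x - c) ^ 2 * q.eval x := by
    intro x hx'
    have h1 := sx_eq a c x
    rw [h0, zero_add, e x] at h1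
    have h2 : (x - c) ≠ 0 := sub_ne_zero.2 hx'
    apply mul_right_cancel₀ h2
    linear_combination -h1
  have hcont1 : Continuous fun x => sx1 a c + hx a c x * (x - c) := by
    unfold hx
    fun_prop
  have hcont2 : Continuous fun x => (x - c) ^ 2 * q.eval x :=
    ((continuous_id.sub continuous_const).pow 2).mul q.continuous
  have heq : ∀ x, sx1 a c + hx a c x * (x - c) = (x - c) ^ 2 * q.eval x := by
    have hdense : Dense ({c}ᶜ : Set ℂ) := dense_compl_singleton c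
    intro x
    exact congrFun (Continuous.ext_on hdense hcont1 hcont2 fun y hy => key y hy) x
  have h1 : sx1 a c = 0 := by
    have := heq c
    simpa using this
  have h2 : hx a c c = 0 := by
    have hk : ∀ x, x ≠ c → hx a c x = (x - c) * q.eval x := by
      intro x hx'
      have h3 := heq x
      rw [h1, zero_add] at h3
      have h4 : (x - c) ≠ 0 := sub_ne_zero.2 hx'
      apply mul_right_cancel₀ h4
      linear_combination h3
    have hc3 : Continuous fun x => hx a c x := by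
      unfold hx
      fun_prop
    have hc4 : Continuous fun x => (x - c) * q.eval x :=
      (continuous_id.sub continuous_const).mul q.continuous
    have := congrFun (Continuous.ext_on (dense_compl_singleton c) hc3 hc4 fun y hy => hk y hy) c
    simpa using this
  exact ha c h0 h1 h2

theorem pol_ne (a : Fin 6 → ℂ) : pol a ≠ 0 := by
  intro h
  have := pol_natDegree a
  rw [h] at this
  simp at this

/-- The roots are isolated. -/
theorem sx_ne_eventually (a : Fin 6 → ℂ) (c : ℂ) : ∀ᶠ x in 𝓝[≠] c, sx a x ≠ 0 := by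
  have hfin : ({x | sx a x = 0} \ {c} : Set ℂ).Finite := by
    refine Set.Finite.subset ((pol a).roots.toFinset.finite_toSet) ?_
    rintro x ⟨hx', -⟩
    rw [Finset.mem_coe, Multiset.mem_toFinset, mem_roots (pol_ne a)]
    exact (pol_eval a x).trans hx'
  have hopen := hfin.isClosed.isOpen_compl.mem_nhds (show c ∈ ({x | sx a x = 0} \ {c} : Set ℂ)ᶜ by simp)
  filter_upwards [nhdsWithin_le_nhds hopen, self_mem_nhdsWithin] with x h1 h2 h3
  exact h1 ⟨h3, h2⟩

theorem continuous_sx (a : Fin 6 → ℂ) : Continuous (sx a) := by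
  unfold sx; fun_prop

theorem hasDerivAt_sx (a : Fin 6 → ℂ) (x : ℂ) : HasDerivAt (sx a) (sx1 a x) x := by
  have h := (pol a).hasDerivAt x
  have e : (fun x => (pol a).eval x) = sx a := funext (pol_eval a)
  rw [e] at h
  have e2 : (derivative (pol a)).eval x = sx1 a x := by
    simp only [pol, sx1, derivative_add, derivative_mul, derivative_C, derivative_X_pow,
      derivative_X, eval_add, eval_mul, eval_C, eval_pow, eval_X, zero_mul, eval_zero, zero_add,
      eval_one, map_natCast, eval_natCast]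
    push_cast
    ring
  rwa [e2] at h

variable {m : ℕ} {B : Set (Fin m → ℂ)} {a : (Fin m → ℂ) → Fin 6 → ℂ} {b : Fin m → ℂ}

/-- Neighbourhoods of a point in affine coordinates. -/
theorem ev_ptA (z₀ : Zaff B a) {φ : tot B a → Prop} (h : ∀ᶠ Q in 𝓝 (ptA z₀), φ Q) :
    ∀ᶠ z in 𝓝 z₀.1, ∀ hz : z ∈ Zaff B a, φ (ptA ⟨z, hz⟩) := by
  obtain ⟨T, hT, hTs⟩ := mem_nhds_induced _ _ _ |>.1 h
  have h1 : emb ⁻¹' T ∈ 𝓝 z₀.1 := continuous_emb.continuousAt.preimage_mem_nhds hT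
  filter_upwards [h1] with z hz hz'
  exact hTs hz

/-- Neighbourhoods of a point in the coordinates near infinity. -/
theorem ev_ptF (z₀ : Zfar B a) {φ : tot B a → Prop} (h : ∀ᶠ Q in 𝓝 (ptF z₀), φ Q) :
    ∀ᶠ z in 𝓝 z₀.1, ∀ hz : z ∈ Zfar B a, φ (ptF ⟨z, hz⟩) := by
  obtain ⟨T, hT, hTs⟩ := mem_nhds_induced _ _ _ |>.1 h
  have h1 : emb' ⁻¹' T ∈ 𝓝 z₀.1 := continuous_emb'.continuousAt.preimage_mem_nhds hT
  filter_upwards [h1] with z hz hz'
  exact hTs hz

theorem near_root {c : ℂ} (hc : sx (a b) c = 0) {S : Set ((Fin m → ℂ) × ℂ × ℂ)}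
    (hS : S ∈ 𝓝 ((b, c, 0) : (Fin m → ℂ) × ℂ × ℂ)) :
    ∀ᶠ x in 𝓝 c, ∀ y, y ^ 2 = sx (a b) x → ((b, x, y) : (Fin m → ℂ) × ℂ × ℂ) ∈ S := by
  have h1 : Tendsto (fun p : ℂ × ℂ => ((b, p.1, p.2) : (Fin m → ℂ) × ℂ × ℂ)) (𝓝 (c, 0))
      (𝓝 (b, c, 0)) := by
    have : Continuous fun p : ℂ × ℂ => ((b, p.1, p.2) : (Fin m → ℂ) × ℂ × ℂ) := by fun_prop
    exact this.tendsto (c, 0)
  have h2 := h1 hS
  rw [mem_map, mem_nhds_prod_iff] at h2
  obtain ⟨U, hU, V, hV, hUV⟩ := h2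
  obtain ⟨δ, hδ, hδV⟩ := Metric.mem_nhds_iff.1 hV
  have h3 : ∀ᶠ x in 𝓝 c, ‖sx (a b) x‖ < δ ^ 2 := by
    have : Tendsto (fun x => ‖sx (a b) x‖) (𝓝 c) (𝓝 ‖sx (a b) c‖) :=
      (continuous_sx (a b)).norm.tendsto c
    rw [hc, norm_zero] at this
    exact this.eventually (gt_mem_nhds (by positivity))
  filter_upwards [hU, h3] with x hx hx2 y hy
  have h4 : y ∈ V := by
    refine hδV ?_
    rw [Metric.mem_ball, dist_zero_right]
    rw [← hy, norm_pow] at hx2
    exact lt_of_pow_lt_pow_left₀ 2 hδ.le hx2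
  have h5 : ((x, y) : ℂ × ℂ) ∈ U ×ˢ V := ⟨hx, h4⟩
  exact hUV h5

/-- Local representation of `D f`. -/
theorem field_rep {L : Type} {C : Fam L m} {D : (C.X → ℂ) → C.X → ℂ} {O : Set C.X}
    {α β : C.X → ℂ} {Z : Set ((Fin m → ℂ) × ℂ × ℂ)} {p : C.X} (hD : C.IsField b D)
    (hA : IsAmb C.π C.hol O α β Z) (hpO : p ∈ O) (hp : p ∈ C.fib b) {f : C.X → ℂ}
    (hf : C.hol f p) : ∃ g : (Fin m → ℂ) × ℂ × ℂ → ℂ, AnalyticAt ℂ g (C.π p, α p, β p) ∧
      ∀ᶠ q in 𝓝[C.fib b] p, D f q = g (C.π q, α q, β q) := by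
  obtain ⟨h, hh, he⟩ := field_hol hD hp hf
  obtain ⟨g, hg, he'⟩ := (hA.hol_iff p hpO h).1 hh
  refine ⟨g, hg, ?_⟩
  filter_upwards [he, nhdsWithin_le_nhds he'] with q h1 h2
  rw [h1, h2]

variable {L : Type} [IsEmpty L] {D : ((start L B a).X → ℂ) → (start L B a).X → ℂ}

theorem ambA : IsAmb (start L B a).π (start L B a).hol (aff : Set (tot B a)) xC yC (Zaff B a) :=
  isAmb_aff

theorem ambF : IsAmb (start L B a).π (start L B a).hol (far : Set (tot B a)) wC uC (Zfar B a) :=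
  isAmb_far

/-- The relation between `D x` and `D y`. -/
theorem rel_xy (hD : (start L B a).IsField b D) {P : tot B a}
    (hP : P ∈ (aff : Set (tot B a))) (hp : P ∈ (start L B a).fib b) :
    2 * yC P * D yC P = sx1 (a b) (xC P) * D xC P := by
  have hx := amb_hol_fst (ambA (L := L)) hP
  have hy := amb_hol_snd (ambA (L := L)) hP
  have h1 := field_mul hD hp hy hy
  have h2 : D (yC * yC) P = deriv (sx (a b)) (xC P) * D xC P := by
    refine field_comp hD ambA hP hp (amb_hol_mul ambA hP hy hy) hx ?_ ?_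
    · have : Differentiable ℂ (sx (a b)) := fun x => (hasDerivAt_sx (a b) x).differentiableAt
      exact this.analyticAt _
    · filter_upwards [self_mem_nhdsWithin, nhdsWithin_le_nhds (isOpen_aff.mem_nhds hP)] with Q h3 h4
      have h5 : yC Q ^ 2 = sx (a (pr Q)) (xC Q) := (cA_mem h4).2
      have h6 : pr Q = b := h3
      rw [h6] at h5
      change yC Q * yC Q = sx (a b) (xC Q)
      rw [← h5]
      ring
  rw [(hasDerivAt_sx (a b) (xC P)).deriv] at h2
  have h3 := h1.symm.trans h2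
  linear_combination h3

/-- The relation between `D x` and `D w`. -/
theorem rel_xw (hD : (start L B a).IsField b D) {P : tot B a}
    (hP : P ∈ (aff : Set (tot B a))) (hP' : P ∈ (far : Set (tot B a)))
    (hp : P ∈ (start L B a).fib b) : D xC P = -(xC P) ^ 2 * D wC P := by
  have hx0 : xC P ≠ 0 := (far_iff hP).1 hP'
  have hw : (start L B a).hol wC P := amb_hol_fst (ambF (L := L)) hP'
  have hw0 : wC P ≠ 0 := (aff_iff hP').1 hP
  have hx := amb_hol_fst (ambA (L := L)) hP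
  have h2 : D xC P = deriv (fun w : ℂ => w⁻¹) (wC P) * D wC P := by
    refine field_comp hD ambA hP hp hx hw (analyticAt_id.inv hw0) ?_
    filter_upwards [nhdsWithin_le_nhds (isOpen_aff.mem_nhds hP),
      nhdsWithin_le_nhds (isOpen_far.mem_nhds hP')] with Q h3 h4
    rw [wC_eq h3 h4, inv_inv]
  rw [h2, deriv_inv, wC_eq hP hP']
  rw [inv_pow, inv_inv]

/-- The value of `D x` at a point. -/
def vv (hb : b ∈ B) (D : ((start L B a).X → ℂ) → (start L B a).X → ℂ) (x y : ℂ) : ℂ :=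
  open scoped Classical in
  if h : y ^ 2 = sx (a b) x then
    D xC (ptA (⟨(b, x, y), ⟨hb, h⟩⟩ : Zaff B a) : tot B a) else 0

theorem vv_eq (hb : b ∈ B) {x y : ℂ} (h : y ^ 2 = sx (a b) x) :
    vv hb D x y = D xC (ptA (⟨(b, x, y), ⟨hb, h⟩⟩ : Zaff B a) : tot B a) := by
  unfold vv
  rw [dif_pos h]

theorem ptA_fib (hb : b ∈ B) {x y : ℂ} (h : y ^ 2 = sx (a b) x) :
    (ptA (⟨(b, x, y), ⟨hb, h⟩⟩ : Zaff B a) : tot B a) ∈ (start L B a).fib b := rfl

theorem xC_ptA {z : Zaff B a} : xC (ptA z) = z.1.2.1 := by rw [xC, cA_ptA]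
theorem yC_ptA {z : Zaff B a} : yC (ptA z) = z.1.2.2 := by rw [yC, cA_ptA]

/-- Near a point with affine coordinates, `D f` is an analytic function of the coordinates. -/
theorem vv_rep (hD : (start L B a).IsField b D) (hb : b ∈ B) {x₀ y₀ : ℂ}
    (h : y₀ ^ 2 = sx (a b) x₀) {f : tot B a → ℂ}
    (hf : (start L B a).hol f (ptA ⟨(b, x₀, y₀), ⟨hb, h⟩⟩)) :
    ∃ g : (Fin m → ℂ) × ℂ × ℂ → ℂ, AnalyticAt ℂ g (b, x₀, y₀) ∧
      ∀ᶠ z in 𝓝 ((b, x₀, y₀) : (Fin m → ℂ) × ℂ × ℂ), ∀ hz : z ∈ Zaff B a, z.1 = b →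
        D f (ptA ⟨z, hz⟩) = g z := by
  obtain ⟨g, hg, he⟩ := field_rep hD ambA (ptA_mem _) (ptA_fib hb h) hf
  have e0 : ((start L B a).π (ptA (⟨(b, x₀, y₀), ⟨hb, h⟩⟩ : Zaff B a)),
      xC (ptA (⟨(b, x₀, y₀), ⟨hb, h⟩⟩ : Zaff B a)),
      yC (ptA (⟨(b, x₀, y₀), ⟨hb, h⟩⟩ : Zaff B a))) = (b, x₀, y₀) := by
    rw [xC_ptA, yC_ptA]; rfl
  rw [e0] at hg
  refine ⟨g, hg, ?_⟩
  have he2 : ∀ᶠ Q in 𝓝 (ptA (⟨(b, x₀, y₀), ⟨hb, h⟩⟩ : Zaff B a)),
      Q ∈ (start L B a).fib b → D f Q = g ((start L B a).π Q, xC Q, yC Q) :=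
    eventually_nhdsWithin_iff.1 he
  filter_upwards [ev_ptA _ he2] with z hz hz' hzb
  have h1 := hz hz' hzb
  rw [h1, xC_ptA, yC_ptA]
  rfl

theorem holx {z : Zaff B a} : (start L B a).hol xC (ptA z) :=
  amb_hol_fst (ambA (L := L)) (ptA_mem z)

theorem holy {z : Zaff B a} : (start L B a).hol yC (ptA z) :=
  amb_hol_snd (ambA (L := L)) (ptA_mem z)

/-- `D x = 0` at the branch points and at the nodes. -/
theorem root_zero (hD : (start L B a).IsField b D) (hb : b ∈ B) (ha : a b ∈ K6) {c : ℂ}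
    (hc : sx (a b) c = 0) (h0 : (0 : ℂ) ^ 2 = sx (a b) c) :
    D xC (ptA (⟨(b, c, 0), ⟨hb, h0⟩⟩ : Zaff B a)) = 0 := by
  by_cases h1 : sx1 (a b) c = 0
  · -- double root
    have h2 := ha c hc h1
    obtain ⟨g₁, hg₁, he₁⟩ := vv_rep hD hb h0 (holx (L := L))
    obtain ⟨g₂, hg₂, he₂⟩ := vv_rep hD hb h0 (holy (L := L))
    have hsq : ∀ x, sx (a b) x = hx (a b) c x * (x - c) ^ 2 := by
      intro x
      rw [sx_eq (a b) c x, hc, h1]; ring
    -- the derivative is `(x - c) k(x)`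
    obtain ⟨k, hk, hkc, hkx⟩ : ∃ k : ℂ → ℂ, Continuous k ∧ k c = 2 * hx (a b) c c ∧
        ∀ x, sx1 (a b) x = (x - c) * k x := by
      have hhd : Differentiable ℂ (hx (a b) c) := by
        unfold hx; fun_prop
      have hcd : Continuous (deriv (hx (a b) c)) := by
        have : Differentiable ℂ (deriv (hx (a b) c)) := by
          intro x
          exact (hhd.analyticAt x).deriv.differentiableAt
        exact this.continuous
      refine ⟨fun x => deriv (hx (a b) c) x * (x - c) + 2 * hx (a b) c x, ?_, by simp, ?_⟩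
      · exact (hcd.mul (continuous_id.sub continuous_const)).add
          (continuous_const.mul hhd.continuous)
      · intro x
        have e1 := hasDerivAt_sx (a b) x
        have e2 : HasDerivAt (fun x => hx (a b) c x * (x - c) ^ 2)
            (deriv (hx (a b) c) x * (x - c) ^ 2 + hx (a b) c x * (2 * (x - c))) x := by
          have e3 := (hhd x).hasDerivAt
          have e4 : HasDerivAt (fun x : ℂ => (x - c) ^ 2) (2 * (x - c)) x := by
            have h3 := ((hasDerivAt_id x).sub_const c).fun_pow 2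
            simpa using h3
          exact e3.mul e4
        have e5 : (fun x => hx (a b) c x * (x - c) ^ 2) = sx (a b) := funext fun x => (hsq x).symm
        rw [e5] at e2
        rw [e1.unique e2]
        ring
    -- on each branch
    have key : ∀ s : ℂ, s ^ 2 = hx (a b) c c →
        2 * s * g₂ (b, c, 0) = 2 * hx (a b) c c * g₁ (b, c, 0) := by
      intro s hs
      set r : ℂ → ℂ := fun x => s * (hx (a b) c x / hx (a b) c c) ^ (1 / 2 : ℂ) with hr
      have hr2 : ∀ x, r x ^ 2 = hx (a b) c x := by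
        intro x
        have h3 : (((hx (a b) c x / hx (a b) c c) ^ (1 / 2 : ℂ)) ^ 2) =
            hx (a b) c x / hx (a b) c c := by
          have := Complex.cpow_nat_inv_pow (hx (a b) c x / hx (a b) c c) (n := 2) two_ne_zero
          simpa only [one_div, Nat.cast_ofNat] using this
        rw [hr]
        simp only
        rw [mul_pow, h3, hs, mul_div_cancel₀ _ h2]
      have hrc : r c = s := by
        rw [hr]; simp [div_self h2]
      have hrcont : ContinuousAt r c := by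
        have hhc : Continuous (hx (a b) c) := by unfold hx; fun_prop
        refine continuousAt_const.mul (ContinuousAt.cpow (hhc.continuousAt.div_const _)
          continuousAt_const ?_)
        simp [div_self h2]
      -- points on the branch
      have hpt : Tendsto (fun x => ((b, x, (x - c) * r x) : (Fin m → ℂ) × ℂ × ℂ)) (𝓝 c)
          (𝓝 (b, c, 0)) := by
        have : ContinuousAt (fun x => ((b, x, (x - c) * r x) : (Fin m → ℂ) × ℂ × ℂ)) c :=
          continuousAt_const.prodMk (continuousAt_id.prodMk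
            ((continuousAt_id.sub continuousAt_const).mul hrcont))
        have h3 := this.tendsto
        simp only [sub_self, zero_mul] at h3
        exact h3
      have hZ : ∀ x, ((b, x, (x - c) * r x) : (Fin m → ℂ) × ℂ × ℂ) ∈ Zaff B a := by
        intro x
        refine ⟨hb, ?_⟩
        simp only
        rw [mul_pow, hr2, hsq]; ring
      have hev : ∀ᶠ x in 𝓝 c, x ≠ c →
          2 * r x * g₂ (b, x, (x - c) * r x) = k x * g₁ (b, x, (x - c) * r x) := by
        filter_upwards [hpt.eventually he₁, hpt.eventually he₂] with x h3 h4 hxc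
        have h5 := h3 (hZ x) rfl
        have h6 := h4 (hZ x) rfl
        have h7 := rel_xy hD (ptA_mem ⟨_, hZ x⟩) (show ptA ⟨_, hZ x⟩ ∈ (start L B a).fib b from rfl)
        rw [h5, h6, xC_ptA, yC_ptA, hkx] at h7
        have h8 : x - c ≠ 0 := sub_ne_zero.2 hxc
        apply mul_left_cancel₀ h8
        linear_combination h7
      have hcont : ContinuousAt (fun x => 2 * r x * g₂ (b, x, (x - c) * r x) -
          k x * g₁ (b, x, (x - c) * r x)) c := by
        have c1 : Tendsto (fun x => g₁ (b, x, (x - c) * r x)) (𝓝 c) (𝓝 (g₁ (b, c, 0))) :=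
          hg₁.continuousAt.tendsto.comp hpt
        have c2 : Tendsto (fun x => g₂ (b, x, (x - c) * r x)) (𝓝 c) (𝓝 (g₂ (b, c, 0))) :=
          hg₂.continuousAt.tendsto.comp hpt
        have c3 : ContinuousAt (fun x => g₁ (b, x, (x - c) * r x)) c := by
          rw [ContinuousAt]; simpa using c1
        have c4 : ContinuousAt (fun x => g₂ (b, x, (x - c) * r x)) c := by
          rw [ContinuousAt]; simpa using c2
        exact ((continuousAt_const.mul hrcont).mul c4).sub (hk.continuousAt.mul c3)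
      have hz : (fun x => 2 * r x * g₂ (b, x, (x - c) * r x) -
          k x * g₁ (b, x, (x - c) * r x)) c = 0 := by
        by_contra hne
        have h9 := (hcont.eventually_ne hne).and hev
        have h10 : ∀ᶠ x in 𝓝[≠] c, False := by
          filter_upwards [nhdsWithin_le_nhds h9, self_mem_nhdsWithin] with x h11 h12
          exact h11.1 (by rw [h11.2 h12, sub_self])
        exact (h10.exists).elim fun _ h => h
      simp only [sub_self, zero_mul, hrc, hkc] at hz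
      linear_combination hz
    obtain ⟨s, hs⟩ : ∃ s : ℂ, s ^ 2 = hx (a b) c c := by
      refine ⟨(hx (a b) c c) ^ (1 / 2 : ℂ), ?_⟩
      have := Complex.cpow_nat_inv_pow (hx (a b) c c) (n := 2) two_ne_zero
      simpa only [one_div, Nat.cast_ofNat] using this
    have k1 := key s hs
    have k2 := key (-s) (by rw [neg_sq, hs])
    have k3 : hx (a b) c c * g₁ (b, c, 0) = 0 := by linear_combination -(k1 + k2) / 4
    have k4 : g₁ (b, c, 0) = 0 := (mul_eq_zero.1 k3).resolve_left h2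
    have k5 := he₁.self_of_nhds ⟨hb, h0⟩ rfl
    rw [k5, k4]
  · have h2 := rel_xy hD (ptA_mem ⟨_, ⟨hb, h0⟩⟩) (ptA_fib (L := L) hb h0)
    rw [xC_ptA, yC_ptA] at h2
    simp only [mul_zero, zero_mul] at h2
    exact (mul_eq_zero.1 h2.symm).resolve_left h1

theorem continuous_sw (a : Fin 6 → ℂ) : Continuous (sw a) := by
  unfold sw; fun_prop

theorem sw_zero (a : Fin 6 → ℂ) : sw a 0 = 1 := by simp [sw]

/-- Near infinity the points of the curve are near one of the two points at infinity. -/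
theorem near_inf {S₁ S₂ : Set ((Fin m → ℂ) × ℂ × ℂ)}
    (h1 : S₁ ∈ 𝓝 ((b, 0, 1) : (Fin m → ℂ) × ℂ × ℂ))
    (h2 : S₂ ∈ 𝓝 ((b, 0, -1) : (Fin m → ℂ) × ℂ × ℂ)) :
    ∀ᶠ w in 𝓝 (0 : ℂ), ∀ u, u ^ 2 = sw (a b) w →
      ((b, w, u) : (Fin m → ℂ) × ℂ × ℂ) ∈ S₁ ∪ S₂ := by
  have hc : Continuous fun p : ℂ × ℂ => ((b, p.1, p.2) : (Fin m → ℂ) × ℂ × ℂ) := by fun_prop
  have key : ∀ (e : ℂ) (S : Set ((Fin m → ℂ) × ℂ × ℂ)), S ∈ 𝓝 ((b, 0, e) : (Fin m → ℂ) × ℂ × ℂ) →
      ∃ δ > 0, ∀ᶠ w in 𝓝 (0 : ℂ), ∀ u, ‖u - e‖ < δ → ((b, w, u) : (Fin m → ℂ) × ℂ × ℂ) ∈ S := by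
    intro e S hS
    have h3 := hc.tendsto (0, e) hS
    rw [mem_map, mem_nhds_prod_iff] at h3
    obtain ⟨U, hU, V, hV, hUV⟩ := h3
    obtain ⟨δ, hδ, hδV⟩ := Metric.mem_nhds_iff.1 hV
    refine ⟨δ, hδ, ?_⟩
    filter_upwards [hU] with w hw u hu
    have h5 : ((w, u) : ℂ × ℂ) ∈ U ×ˢ V := ⟨hw, hδV (by rwa [Metric.mem_ball, dist_eq_norm])⟩
    exact hUV h5
  obtain ⟨δ₁, hδ₁, h3⟩ := key 1 S₁ h1
  obtain ⟨δ₂, hδ₂, h4⟩ := key (-1) S₂ h2
  set δ := min δ₁ δ₂ with hδ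
  have hδ0 : 0 < δ := lt_min hδ₁ hδ₂
  have h5 : ∀ᶠ w in 𝓝 (0 : ℂ), ‖sw (a b) w - 1‖ < δ ^ 2 := by
    have : Tendsto (fun w => ‖sw (a b) w - 1‖) (𝓝 0) (𝓝 ‖sw (a b) 0 - 1‖) :=
      ((continuous_sw (a b)).sub continuous_const).norm.tendsto 0
    rw [sw_zero, sub_self, norm_zero] at this
    exact this.eventually (gt_mem_nhds (by positivity))
  filter_upwards [h3, h4, h5] with w h6 h7 h8 u hu
  rw [← hu] at h8
  have h9 : ‖u - 1‖ * ‖u + 1‖ < δ * δ := by
    rw [← norm_mul]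
    calc ‖(u - 1) * (u + 1)‖ = ‖u ^ 2 - 1‖ := by congr 1; ring
      _ < δ ^ 2 := h8
      _ = δ * δ := by ring
  by_cases h10 : ‖u - 1‖ < δ
  · exact Or.inl (h6 u (lt_of_lt_of_le h10 (min_le_left _ _)))
  · right
    refine h7 u (lt_of_lt_of_le (b := δ) ?_ (min_le_right _ _))
    rw [sub_neg_eq_add]
    by_contra h11
    have h12 : δ * δ ≤ ‖u - 1‖ * ‖u + 1‖ :=
      mul_le_mul (not_lt.1 h10) (not_lt.1 h11) hδ0.le (norm_nonneg _)
    linarith

theorem ptA_eq_ptF (hb : b ∈ B) {x y : ℂ} (h : y ^ 2 = sx (a b) x) (hx : x ≠ 0) :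
    ∃ h' : (y / x ^ 3) ^ 2 = sw (a b) x⁻¹, (ptA (⟨(b, x, y), ⟨hb, h⟩⟩ : Zaff B a) : tot B a) =
      ptF ⟨(b, x⁻¹, y / x ^ 3), ⟨hb, h'⟩⟩ := by
  have h1 : (y / x ^ 3) ^ 2 = sw (a b) x⁻¹ := by
    rw [sw_eq _ hx, ← h]; ring
  refine ⟨h1, Subtype.ext ?_⟩
  exact (emb'_tr (z := ((b, x, y) : (Fin m → ℂ) × ℂ × ℂ)) hx).symm

/-- `D x = O(x ^ 2)` at infinity. -/
theorem vv_inf (hD : (start L B a).IsField b D) (hb : b ∈ B) :
    ∃ C, ∀ᶠ x in cocompact ℂ, ∀ y, y ^ 2 = (pol (a b)).eval x → ‖vv hb D x y‖ ≤ C * ‖x‖ ^ 2 := by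
  have key : ∀ e : ℂ, (e ^ 2 = sw (a b) 0) → ∃ M > 0,
      ∀ᶠ z in 𝓝 ((b, 0, e) : (Fin m → ℂ) × ℂ × ℂ), ∀ hz : z ∈ Zfar B a, z.1 = b →
        ‖D wC (ptF ⟨z, hz⟩)‖ ≤ M := by
    intro e he
    have hc := field_cont hD (ambF (L := L)) (ptF_mem ⟨(b, 0, e), ⟨hb, he⟩⟩)
      (show ptF (⟨(b, 0, e), ⟨hb, he⟩⟩ : Zfar B a) ∈ (start L B a).fib b from rfl)
      (amb_hol_fst (ambF (L := L)) (ptF_mem ⟨(b, 0, e), ⟨hb, he⟩⟩))
    refine ⟨‖D wC (ptF (⟨(b, 0, e), ⟨hb, he⟩⟩ : Zfar B a))‖ + 1, by positivity, ?_⟩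
    have h1 : ∀ᶠ Q in 𝓝[(start L B a).fib b] (ptF (⟨(b, 0, e), ⟨hb, he⟩⟩ : Zfar B a)),
        ‖D wC Q‖ < ‖D wC (ptF (⟨(b, 0, e), ⟨hb, he⟩⟩ : Zfar B a))‖ + 1 :=
      hc.norm.eventually (gt_mem_nhds (by linarith))
    have h2 : ∀ᶠ Q in 𝓝 (ptF (⟨(b, 0, e), ⟨hb, he⟩⟩ : Zfar B a)), Q ∈ (start L B a).fib b →
        ‖D wC Q‖ < ‖D wC (ptF (⟨(b, 0, e), ⟨hb, he⟩⟩ : Zfar B a))‖ + 1 :=
      eventually_nhdsWithin_iff.1 h1
    filter_upwards [ev_ptF _ h2] with z hz hz' hzb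
    exact (hz hz' hzb).le
  obtain ⟨M₁, hM₁, h1⟩ := key 1 (by rw [sw_zero]; ring)
  obtain ⟨M₂, hM₂, h2⟩ := key (-1) (by rw [sw_zero]; ring)
  refine ⟨M₁ + M₂, ?_⟩
  have h3 := near_inf (a := a) h1 h2
  have h4 : Tendsto (fun x : ℂ => x⁻¹) (cocompact ℂ) (𝓝 0) := by
    have := tendsto_inv₀_cobounded (α := ℂ)
    rwa [Metric.cobounded_eq_cocompact] at this
  filter_upwards [h4.eventually h3, (isCompact_singleton (x := (0 : ℂ))).compl_mem_cocompact]
    with x h5 h6 y hy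
  have hx0 : x ≠ 0 := h6
  rw [pol_eval] at hy
  obtain ⟨h7, h8⟩ := ptA_eq_ptF hb hy hx0
  have h9 := h5 _ h7
  have hPA : (ptA (⟨(b, x, y), ⟨hb, hy⟩⟩ : Zaff B a) : tot B a) ∈ (far : Set (tot B a)) := by
    rw [h8]; exact ptF_mem _
  rw [vv_eq hb hy, rel_xw hD (ptA_mem _) hPA (ptA_fib hb hy), xC_ptA]
  simp only
  rw [norm_mul, norm_neg, norm_pow, mul_comm]
  refine mul_le_mul_of_nonneg_right ?_ (by positivity)
  rw [h8]
  rcases h9 with h9 | h9
  · exact (h9 ⟨hb, h7⟩ rfl).trans (by linarith)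
  · exact (h9 ⟨hb, h7⟩ rfl).trans (by linarith)

/-- **`D x = 0`** at all affine points. -/
theorem vv_zero (hD : (start L B a).IsField b D) (hb : b ∈ B) (ha : a b ∈ K6) {x y : ℂ}
    (hx : sx (a b) x ≠ 0) (hy : y ^ 2 = sx (a b) x) : vv hb D x y = 0 := by
  refine field_eq_zero (pol (a b)) (by rw [pol_natDegree]; norm_num) (pol_mult ha) (vv hb D)
    ?_ ?_ (vv_inf hD hb) x y (by rwa [pol_eval]) (by rw [pol_eval]; exact hy)
  · intro x₀ hx₀ ρ hρ hρ2
    simp only [pol_eval] at hx₀ hρ2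
    have h0 : ρ x₀ ^ 2 = sx (a b) x₀ := hρ2.self_of_nhds
    obtain ⟨g, hg, he⟩ := vv_rep hD hb h0 (holx (L := L))
    have hpt : Tendsto (fun x => ((b, x, ρ x) : (Fin m → ℂ) × ℂ × ℂ)) (𝓝 x₀)
        (𝓝 (b, x₀, ρ x₀)) :=
      (continuousAt_const.prodMk (continuousAt_id.prodMk hρ.continuousAt)).tendsto
    have h1 : (fun x => vv hb D x (ρ x)) =ᶠ[𝓝 x₀] fun x => g (b, x, ρ x) := by
      filter_upwards [hpt.eventually he, hρ2] with x h2 h3
      rw [vv_eq hb h3]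
      exact h2 ⟨hb, h3⟩ rfl
    have h2 : AnalyticAt ℂ (fun x => ((b, x, ρ x) : (Fin m → ℂ) × ℂ × ℂ)) x₀ :=
      analyticAt_const.prod (analyticAt_id.prod hρ)
    have h3 : AnalyticAt ℂ (fun x => g (b, x, ρ x)) x₀ :=
      AnalyticAt.comp (g := g) (f := fun x => ((b, x, ρ x) : (Fin m → ℂ) × ℂ × ℂ)) (x := x₀) hg h2
    exact h3.differentiableAt.congr_of_eventuallyEq h1
  · intro c hc ε hε
    rw [pol_eval] at hc
    have h0 : (0 : ℂ) ^ 2 = sx (a b) c := by rw [hc]; ring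
    have h1 := root_zero hD hb ha hc h0
    obtain ⟨g, hg, he⟩ := vv_rep hD hb h0 (holx (L := L))
    have h2 : g (b, c, 0) = 0 := by rw [← he.self_of_nhds ⟨hb, h0⟩ rfl, h1]
    have h3 : ∀ᶠ z in 𝓝 ((b, c, 0) : (Fin m → ℂ) × ℂ × ℂ), ‖g z‖ < ε := by
      have := hg.continuousAt.norm
      rw [ContinuousAt, h2, norm_zero] at this
      exact this.eventually (gt_mem_nhds hε)
    filter_upwards [nhdsWithin_le_nhds (near_root hc (he.and h3))] with x h4 y hy
    rw [pol_eval] at hy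
    obtain ⟨h5, h6⟩ := h4 y hy
    rw [vv_eq hb hy, h5 ⟨hb, hy⟩ rfl]
    exact h6.le

/-- `D = 0` at the affine points off the branch points. -/
theorem smooth_zero (hD : (start L B a).IsField b D) (hb : b ∈ B) (ha : a b ∈ K6)
    {P : tot B a} (hPA : P ∈ (aff : Set (tot B a))) (hp : P ∈ (start L B a).fib b)
    (hy0 : yC P ≠ 0) {f : tot B a → ℂ} (hf : (start L B a).hol f P) : D f P = 0 := by
  have hπ : pr P = b := hp
  obtain ⟨⟨⟨b', x₀, y₀⟩, hz⟩, rfl⟩ := exists_aff hPA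
  have hb' : b' = b := hp
  subst hb'
  have hy : y₀ ^ 2 = sx (a b') x₀ := hz.2
  have hy1 : y₀ ≠ 0 := by rwa [yC_ptA] at hy0
  have hx0 : sx (a b') x₀ ≠ 0 := by rw [← hy]; exact pow_ne_zero 2 hy1
  have h1 : D xC (ptA (⟨(b', x₀, y₀), hz⟩ : Zaff B a)) = 0 := by
    have := vv_zero hD hb ha hx0 hy
    rwa [vv_eq hb hy] at this
  obtain ⟨g, hg, he⟩ := (ambA (L := L)).hol_iff _ hPA f |>.1 hf
  obtain ⟨ρ, hρa, hρ2, hρ0⟩ := exists_root (f := pol (a b')) (x₀ := x₀) (y₀ := y₀)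
    (by rwa [pol_eval]) (by rw [pol_eval]; exact hy)
  have e0 : ((start L B a).π (ptA (⟨(b', x₀, y₀), hz⟩ : Zaff B a)),
      xC (ptA (⟨(b', x₀, y₀), hz⟩ : Zaff B a)),
      yC (ptA (⟨(b', x₀, y₀), hz⟩ : Zaff B a))) = (b', x₀, y₀) := by
    rw [xC_ptA, yC_ptA]; rfl
  rw [e0] at hg
  have h2 : D f (ptA (⟨(b', x₀, y₀), hz⟩ : Zaff B a)) =
      deriv (fun x => g (b', x, ρ x)) (xC (ptA (⟨(b', x₀, y₀), hz⟩ : Zaff B a))) *
        D xC (ptA (⟨(b', x₀, y₀), hz⟩ : Zaff B a)) := by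
    refine field_comp hD ambA hPA hp hf (amb_hol_fst (ambA (L := L)) hPA) ?_ ?_
    · rw [xC_ptA]
      have h2 : AnalyticAt ℂ (fun x => ((b', x, ρ x) : (Fin m → ℂ) × ℂ × ℂ)) x₀ :=
        analyticAt_const.prod (analyticAt_id.prod hρa)
      refine AnalyticAt.comp (g := g) (f := fun x => ((b', x, ρ x) : (Fin m → ℂ) × ℂ × ℂ))
        (x := x₀) ?_ h2
      rw [hρ0]; exact hg
    · have hcx : ContinuousAt (xC : tot B a → ℂ) (ptA ⟨(b', x₀, y₀), hz⟩) :=
        amb_hol_cont (ambA (L := L)) hPA (amb_hol_fst (ambA (L := L)) hPA)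
      have hcy : ContinuousAt (yC : tot B a → ℂ) (ptA ⟨(b', x₀, y₀), hz⟩) :=
        amb_hol_cont (ambA (L := L)) hPA (amb_hol_snd (ambA (L := L)) hPA)
      have hcρ : ContinuousAt (fun Q : tot B a => ρ (xC Q)) (ptA ⟨(b', x₀, y₀), hz⟩) := by
        refine ContinuousAt.comp (f := (xC : tot B a → ℂ)) (g := ρ) ?_ hcx
        rw [xC_ptA]; exact hρa.continuousAt
      have hne : ∀ᶠ Q in 𝓝 (ptA (⟨(b', x₀, y₀), hz⟩ : Zaff B a)), yC Q + ρ (xC Q) ≠ 0 := by
        refine (hcy.add hcρ).eventually_ne ?_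
        simp only [Pi.add_apply]
        rw [xC_ptA, yC_ptA]
        simp only [hρ0]
        intro h
        exact hy1 (by linear_combination h / 2)
      filter_upwards [self_mem_nhdsWithin, nhdsWithin_le_nhds he, nhdsWithin_le_nhds hne,
        nhdsWithin_le_nhds (isOpen_aff.mem_nhds hPA)] with Q h3 h4 h5 h6
      have h7 : yC Q ^ 2 = sx (a (pr Q)) (xC Q) := (cA_mem h6).2
      have h8 : pr Q = b' := h3
      rw [h8, ← pol_eval, ← hρ2] at h7
      have h9 : yC Q = ρ (xC Q) := by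
        rcases sq_eq_sq_iff_eq_or_eq_neg.1 h7 with h | h
        · exact h
        · exact absurd (by rw [h]; ring) h5
      rw [h4, ← h9]
      have h10 : (start L B a).π Q = b' := h3
      rw [h10]
  rw [h2, h1, mul_zero]

/-- Points off the branch points are dense in the fibres. -/
theorem freq_smooth (hb : b ∈ B) {P : tot B a} (hp : P ∈ (start L B a).fib b) :
    ∃ᶠ Q in 𝓝[(start L B a).fib b] P, Q ∈ {Q : tot B a | Q ∈ (aff : Set (tot B a)) ∧ yC Q ≠ 0} := by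
  rw [frequently_iff]
  intro S hS
  obtain ⟨V, hV, hVS⟩ := mem_nhdsWithin_iff_exists_mem_nhds_inter.1 hS
  by_cases hPA : P ∈ (aff : Set (tot B a))
  · by_cases hy0 : yC P = 0
    · obtain ⟨⟨⟨b', c, y₀⟩, hz⟩, rfl⟩ := exists_aff hPA
      have hb' : b' = b := hp
      subst hb'
      have hy1 : y₀ = 0 := by rwa [yC_ptA] at hy0
      subst hy1
      have hc : sx (a b') c = 0 := by
        have := hz.2
        simp only [ne_eq, OfNat.ofNat_ne_zero, not_false_eq_true, zero_pow] at this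
        exact this.symm
      have h1 := near_root hc (ev_ptA _ hV)
      have h1' := Eventually.filter_mono (nhdsWithin_le_nhds (s := {c}ᶜ)) h1
      obtain ⟨x, h2, h3⟩ := (h1'.and (sx_ne_eventually (a b') c)).exists
      obtain ⟨y, hy⟩ : ∃ y : ℂ, y ^ 2 = sx (a b') x := by
        refine ⟨(sx (a b') x) ^ (1 / 2 : ℂ), ?_⟩
        have := Complex.cpow_nat_inv_pow (sx (a b') x) (n := 2) two_ne_zero
        simpa only [one_div, Nat.cast_ofNat] using this
      have h4 := h2 y hy ⟨hb, hy⟩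
      refine ⟨ptA ⟨(b', x, y), ⟨hb, hy⟩⟩, hVS ⟨h4, rfl⟩, ptA_mem _, ?_⟩
      rw [yC_ptA]
      intro h5
      simp only at h5
      rw [h5] at hy
      exact h3 (by rw [← hy]; ring)
    · exact ⟨P, hVS ⟨mem_of_mem_nhds hV, hp⟩, hPA, hy0⟩
  · have hPF := (mem_aff_or_far P).resolve_left hPA
    obtain ⟨⟨⟨b', w₀, u₀⟩, hz⟩, rfl⟩ := exists_far hPF
    have hb' : b' = b := hp
    subst hb'
    have hw : w₀ = 0 := by
      by_contra h
      exact hPA ((aff_iff hPF).2 (by rw [wC, cF_ptF]; exact h))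
    subst hw
    have hu : u₀ ^ 2 = sw (a b') 0 := hz.2
    have h1 := ev_ptF _ hV
    set r : ℂ → ℂ := fun w => u₀ * (sw (a b') w) ^ (1 / 2 : ℂ) with hr
    have hr2 : ∀ w, r w ^ 2 = sw (a b') w := by
      intro w
      have h3 : (((sw (a b') w) ^ (1 / 2 : ℂ)) ^ 2) = sw (a b') w := by
        have := Complex.cpow_nat_inv_pow (sw (a b') w) (n := 2) two_ne_zero
        simpa only [one_div, Nat.cast_ofNat] using this
      rw [hr]
      simp only
      rw [mul_pow, h3, hu, sw_zero, one_mul]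
    have hr0 : r 0 = u₀ := by rw [hr]; simp [sw_zero]
    have hrc : ContinuousAt r 0 := by
      refine continuousAt_const.mul (ContinuousAt.cpow (continuous_sw _).continuousAt
        continuousAt_const ?_)
      rw [sw_zero]; simp
    have hpt : Tendsto (fun w => ((b', w, r w) : (Fin m → ℂ) × ℂ × ℂ)) (𝓝 0) (𝓝 (b', 0, u₀)) := by
      have : ContinuousAt (fun w => ((b', w, r w) : (Fin m → ℂ) × ℂ × ℂ)) 0 :=
        continuousAt_const.prodMk (continuousAt_id.prodMk hrc)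
      have h3 := this.tendsto
      rwa [hr0] at h3
    have h2 : ∀ᶠ w in 𝓝 (0 : ℂ), sw (a b') w ≠ 0 :=
      (continuous_sw (a b')).continuousAt.eventually_ne (by rw [sw_zero]; exact one_ne_zero)
    have h3 : ∀ᶠ w in 𝓝[≠] (0 : ℂ), w ≠ 0 := self_mem_nhdsWithin
    have h1' := Eventually.filter_mono (nhdsWithin_le_nhds (s := {(0 : ℂ)}ᶜ)) (hpt.eventually h1)
    have h2' := Eventually.filter_mono (nhdsWithin_le_nhds (s := {(0 : ℂ)}ᶜ)) h2
    obtain ⟨w, ⟨h4, h5⟩, h6⟩ := ((h1'.and h2').and h3).exists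
    have hzw : ((b', w, r w) : (Fin m → ℂ) × ℂ × ℂ) ∈ Zfar B a := ⟨hb, hr2 w⟩
    have hQF := ptF_mem (⟨_, hzw⟩ : Zfar B a)
    have hQA : ptF (⟨_, hzw⟩ : Zfar B a) ∈ (aff : Set (tot B a)) :=
      (aff_iff hQF).2 (by rw [wC, cF_ptF]; exact h6)
    refine ⟨ptF ⟨_, hzw⟩, hVS ⟨h4 hzw, rfl⟩, hQA, ?_⟩
    intro h7
    have h8 := uC_eq hQA hQF
    rw [h7, zero_div, uC, cF_ptF] at h8
    simp only at h8
    have h9 := hr2 w
    rw [h8] at h9
    exact h5 (by rw [← h9]; ring)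

/-- **The curves `y ^ 2 = f(x)`, `f` a monic sextic without triple roots, have no holomorphic
vector fields.** -/
theorem start_field (ha : ∀ b ∈ B, a b ∈ K6) (b : Fin m → ℂ) (hb : b ∈ B)
    (D : ((start L B a).X → ℂ) → (start L B a).X → ℂ) (hD : (start L B a).IsField b D)
    (P : (start L B a).X) (hp : P ∈ (start L B a).fib b) (f : (start L B a).X → ℂ)
    (hf : (start L B a).hol f P) : D f P = 0 := by
  have hS : ∀ Q ∈ {Q : tot B a | Q ∈ (aff : Set (tot B a)) ∧ yC Q ≠ 0},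
      Q ∈ (start L B a).fib b → ∀ f, (start L B a).hol f Q → D f Q = 0 :=
    fun Q hQ hQb f hf => smooth_zero hD hb (ha b hb) hQ.1 hQb hQ.2 hf
  rcases mem_aff_or_far (P : tot B a) with h | h
  · exact field_zero_of_dense hD (ambA (L := L)) h hp (freq_smooth hb hp) hS hf
  · exact field_zero_of_dense hD (ambF (L := L)) h hp (freq_smooth hb hp) hS hf

end Vale.Agent.P273.H724
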