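import Vale.Agent.P273.H95.Wall
import Vale.Agent.P273.H183.Start

/-! Dictionary between the sextics of the wall (H95) and of the start family (H183). -/

noncomputable section

namespace Vale.Agent.P273.H724

open Set

theorem sx_eq (a : Fin 6 → ℂ) (x : ℂ) : H95.sx a x = H183.sx a x := by
  simp only [H95.sx, H183.sx, Fin.sum_univ_six]
  simp
  ring

theorem sx1_eq (a : Fin 6 → ℂ) (x : ℂ) : H95.sx1 a x = H183.sx1 a x := by
  simp only [H95.sx1, H183.sx1, Fin.sum_univ_six]
  simp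
  ring

theorem sx2_eq (a : Fin 6 → ℂ) (x : ℂ) : H95.sx2 a x = 2 * H183.hx a x x := by
  simp only [H95.sx2, H183.hx, Fin.sum_univ_six]
  simp
  ring

theorem sw_eq (a : Fin 6 → ℂ) (w : ℂ) : H95.sw a w = H183.sw a w := by
  simp only [H95.sw, H183.sw, Fin.sum_univ_six]
  simp
  ring

theorem K6_eq : H95.K6 = H183.K6 := by
  ext a
  simp only [H95.K6, H183.K6, Set.mem_ofPred_eq, sx_eq, sx1_eq, sx2_eq]
  constructor
  · intro h x h1 h2 h3
    exact h x ⟨h1, h2, by rw [h3, mul_zero]⟩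
  · rintro h x ⟨h1, h2, h3⟩
    exact h x h1 h2 ((mul_eq_zero.1 h3).resolve_left two_ne_zero)

theorem pol_false (a : Fin 6 → ℂ) (x : ℂ) : H95.pol false a x = H183.sx a x := by
  simp [H95.pol, sx_eq]

theorem pol_true (a : Fin 6 → ℂ) (x : ℂ) : H95.pol true a x = H183.sw a x := by
  simp [H95.pol, sw_eq]

end Vale.Agent.P273.H724
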