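import Vale.Agent.P273.H724.RegDom

/-! Analyticity and separation of the positions of the marks over a region at the theta point. -/

noncomputable section

namespace Vale.Agent.P273.H724

open Set Filter H95
open scoped Topology

variable {R : Region} {S : L → Bool} {p : R.Sp}

theorem an_gap (g : R.Gap) : AnalyticAt ℂ (fun q : R.Sp => q.1 g) p :=
  ((ContinuousLinearMap.proj (R := ℂ) (φ := fun _ : R.Gap => ℂ) g).comp
    (ContinuousLinearMap.fst ℂ (R.Gap → ℂ) (R.Cm → ℂ))).analyticAt p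

theorem an_cm (j : R.Cm) : AnalyticAt ℂ (fun q : R.Sp => q.2 j) p :=
  ((ContinuousLinearMap.proj (R := ℂ) (φ := fun _ : R.Cm => ℂ) j).comp
    (ContinuousLinearMap.snd ℂ (R.Gap → ℂ) (R.Cm → ℂ))).analyticAt p

theorem an_eps (k : Fin 3) : AnalyticAt ℂ (fun q : R.Sp => R.eps q k) p :=
  Finset.analyticAt_fun_prod _ fun g _ => an_gap _

theorem an_XX (k : Fin 3) (i : ℕ) : AnalyticAt ℂ (fun q : R.Sp => R.XX q k i) p := by
  refine Finset.analyticAt_fun_prod _ fun g _ => ?_
  by_cases h : (g : ℕ) ≤ i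
  · simp only [h, if_true]; exact an_gap _
  · simp only [h, if_false]; exact analyticAt_const

theorem an_YY (k : Fin 3) (i : ℕ) : AnalyticAt ℂ (fun q : R.Sp => R.YY q k i) p := by
  refine Finset.analyticAt_fun_prod _ fun g _ => ?_
  by_cases h : i < (g : ℕ)
  · simp only [h, if_true]; exact an_gap _
  · simp only [h, if_false]; exact analyticAt_const

theorem an_pos (j : L) : AnalyticAt ℂ (fun q : R.Sp => R.pos q j) p := by
  rcases hj : R.pl j with k | s
  · have : (fun q : R.Sp => R.pos q j) = fun q =>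
        ctr k + (R.XX q k (R.rk j) + R.YY q k (R.rk j)) / 2 := funext fun q => pos_neck q hj
    rw [this]
    exact analyticAt_const.add (((an_XX _ _).add (an_YY _ _)).div analyticAt_const two_ne_zero)
  · have : (fun q : R.Sp => R.pos q j) = fun q => q.2 ⟨j, by simp [hj]⟩ :=
      funext fun q => pos_core q hj
    rw [this]
    exact an_cm _

theorem an_thA (i : Fin 6) : AnalyticAt ℂ (fun q : R.Sp => thA (R.eps q) i) p :=
  analyticAt_thA (fun k => an_eps k) i

theorem an_thA' : AnalyticAt ℂ (fun q : R.Sp => thA (R.eps q)) p :=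
  analyticAt_pi_iff.2 fun i => an_thA i

theorem an_psi : AnalyticAt ℂ (fun q : R.Sp => R.psi q) p :=
  an_thA'.prod (analyticAt_pi_iff.2 fun j => an_pos j)

section general

variable {A : Type*} [NormedAddCommGroup A] [NormedSpace ℂ A] {q : A} {f g : A → ℂ}

/-- One factor is analytic. -/
theorem an_factor (hf : AnalyticAt ℂ f q) (hg : AnalyticAt ℂ g q)
    (h : ‖f q‖ < 1 * ‖g q‖ ^ 2) : AnalyticAt ℂ (fun q => g q * csq (1 - f q / g q ^ 2)) q := by
  refine hg.mul (analyticAt_csq (analyticAt_const.sub (hf.div (hg.pow 2) ?_)) (mem_slit ?_))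
  · exact pow_ne_zero 2 (ne_of_frac h)
  · exact frac_lt le_rfl h

theorem factor_ne {e z : ℂ} (h : ‖e‖ < 1 * ‖z‖ ^ 2) : z * csq (1 - e / z ^ 2) ≠ 0 :=
  mul_ne_zero (ne_of_frac h) (csq_ne (one_sub_ne (frac_lt le_rfl h)))

end general

theorem quarter {a b : ℝ} (hb : 0 ≤ b) (h : a < 1 / 4 * b) : a < 1 * b := by linarith

theorem an_gk (k : Fin 3) {x : R.Sp → ℂ} (hx : AnalyticAt ℂ x p)
    (h : ∀ l, l ≠ k → ‖R.eps p l‖ < 1 * ‖x p - ctr l‖ ^ 2) :
    AnalyticAt ℂ (fun q => gk (R.eps q) k (x q)) p := by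
  refine Finset.analyticAt_fun_prod _ fun l _ => ?_
  by_cases hl : l = k
  · simp only [hl, if_true]; exact analyticAt_const
  · simp only [hl, if_false]
    exact an_factor (an_eps l) (hx.sub analyticAt_const) (h l hl)

theorem gk_ne {ε : Fin 3 → ℂ} {k : Fin 3} {x : ℂ}
    (h : ∀ l, l ≠ k → ‖ε l‖ < 1 * ‖x - ctr l‖ ^ 2) : gk ε k x ≠ 0 := by
  refine Finset.prod_ne_zero_iff.2 fun l _ => ?_
  by_cases hl : l = k
  · simp [hl]
  · simp only [hl, if_false]
    exact factor_ne (h l hl)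

theorem gc_ne {ε : Fin 3 → ℂ} {x : ℂ} (h : ∀ l, ‖ε l‖ < 1 * ‖x - ctr l‖ ^ 2) : gc ε x ≠ 0 :=
  Finset.prod_ne_zero_iff.2 fun l _ => factor_ne (h l)

theorem gcw_ne {ε : Fin 3 → ℂ} {w : ℂ} (h : ∀ l, ‖ε l * w ^ 2‖ < 1 * ‖1 - ctr l * w‖ ^ 2) :
    gcw ε w ≠ 0 :=
  Finset.prod_ne_zero_iff.2 fun l _ => factor_ne (h l)

theorem neck_cond (h : p ∈ R.dom S) {j : L} {k : Fin 3} (hj : R.pl j = Sum.inl k) (l : Fin 3)
    (hl : l ≠ k) : ‖R.eps p l‖ < 1 * ‖R.pos p j - ctr l‖ ^ 2 :=
  far_frac (dom_eps h l) (neck_far hl (neck_near h hj))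

/-- The first three conditions of the domain. -/
def dom1 (R : Region) (S : L → Bool) : Set R.Sp := {p |
  (∀ k, ‖R.eps p k‖ < 1 / 4096) ∧
  (∀ j k, R.pl j = Sum.inl k → ‖R.XX p k (R.rk j)‖ < 1 / 8 ∧ ‖R.YY p k (R.rk j)‖ < 1 / 8) ∧
  (∀ (j : L) (s : Bool), R.pl j = Sum.inr s → ∀ l,
    if S j then ‖R.eps p l * R.pos p j ^ 2‖ < ‖1 - ctr l * R.pos p j‖ ^ 2 / 4
    else ‖R.eps p l‖ < ‖R.pos p j - ctr l‖ ^ 2 / 4)}

theorem dom1_sht (h : p ∈ dom1 R S) (j : L) : AnalyticAt ℂ (fun q : R.Sp => R.sht S q j) p := by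
  rcases hj : R.pl j with k | s
  · have e : (fun q : R.Sp => R.sht S q j) = fun q =>
        gk (R.eps q) k (R.pos q j) * (R.XX q k (R.rk j) - R.YY q k (R.rk j)) / 2 :=
      funext fun q => sht_neck q hj
    rw [e]
    have hn : ‖R.pos p j - ctr k‖ < 1 / 8 := by
      obtain ⟨h1, h2⟩ := h.2.1 j k hj
      rw [pos_neck p hj]
      have : ctr k + (R.XX p k (R.rk j) + R.YY p k (R.rk j)) / 2 - ctr k =
          (R.XX p k (R.rk j) + R.YY p k (R.rk j)) / 2 := by ring
      rw [this, norm_div]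
      have h3 := norm_add_le (R.XX p k (R.rk j)) (R.YY p k (R.rk j))
      have h4 : ‖(2 : ℂ)‖ = 2 := by simp
      rw [h4, div_lt_iff₀ (by norm_num)]
      linarith
    exact ((an_gk k (an_pos j) fun l hl => far_frac (h.1 l) (neck_far hl hn)).mul
      ((an_XX _ _).sub (an_YY _ _))).div analyticAt_const two_ne_zero
  · have e : (fun q : R.Sp => R.sht S q j) = fun q => (if s then -1 else 1) *
        (if S j then gcw (R.eps q) (R.pos q j) else gc (R.eps q) (R.pos q j)) :=
      funext fun q => sht_core q hj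
    rw [e]
    refine analyticAt_const.mul ?_
    have hc := h.2.2 j s hj
    by_cases hSj : S j = true
    · simp only [hSj, if_true] at hc ⊢
      refine Finset.analyticAt_fun_prod _ fun l _ => ?_
      refine an_factor ((an_eps l).mul ((an_pos j).pow 2))
        (analyticAt_const.sub (analyticAt_const.mul (an_pos j))) ?_
      exact quarter (by positivity) (by linarith [hc l])
    · have hSj' : S j = false := by simpa using hSj
      simp only [hSj', Bool.false_eq_true, if_false] at hc ⊢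
      refine Finset.analyticAt_fun_prod _ fun l _ => ?_
      refine an_factor (an_eps l) ((an_pos j).sub analyticAt_const) ?_
      exact quarter (by positivity) (by linarith [hc l])

theorem dom_sub_dom1 (h : p ∈ R.dom S) : p ∈ dom1 R S := ⟨h.1, h.2.1, h.2.2.1⟩

/-- The sheets are analytic on the domain. -/
theorem an_sht (h : p ∈ R.dom S) (j : L) : AnalyticAt ℂ (fun q : R.Sp => R.sht S q j) p :=
  dom1_sht (dom_sub_dom1 h) j

theorem dom1_open : IsOpen (dom1 R S) := by
  have hc : ∀ {f : R.Sp → ℂ}, (∀ q, AnalyticAt ℂ f q) → Continuous f := fun h =>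
    continuous_iff_continuousAt.2 fun q => (h q).continuousAt
  have ceps : ∀ k, Continuous fun q : R.Sp => R.eps q k := fun k => hc fun q => an_eps k
  have cXX : ∀ k i, Continuous fun q : R.Sp => R.XX q k i := fun k i => hc fun q => an_XX k i
  have cYY : ∀ k i, Continuous fun q : R.Sp => R.YY q k i := fun k i => hc fun q => an_YY k i
  have cpos : ∀ j, Continuous fun q : R.Sp => R.pos q j := fun j => hc fun q => an_pos j
  have e : dom1 R S = (⋂ k, {p : R.Sp | ‖R.eps p k‖ < 1 / 4096}) ∩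
      ((⋂ j, ⋂ k, ⋂ (_ : R.pl j = Sum.inl k), {p : R.Sp | ‖R.XX p k (R.rk j)‖ < 1 / 8 ∧
        ‖R.YY p k (R.rk j)‖ < 1 / 8}) ∩
      ⋂ j, ⋂ s, ⋂ (_ : R.pl j = Sum.inr s), ⋂ l : Fin 3, {p : R.Sp |
        if S j then ‖R.eps p l * R.pos p j ^ 2‖ < ‖1 - ctr l * R.pos p j‖ ^ 2 / 4
        else ‖R.eps p l‖ < ‖R.pos p j - ctr l‖ ^ 2 / 4}) := by
    ext p
    simp only [dom1, Set.mem_ofPred_eq, mem_inter_iff, mem_iInter]
  rw [e]
  refine IsOpen.inter (isOpen_iInter_of_finite fun k => ?_) (IsOpen.inter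
    (isOpen_iInter_of_finite fun j => isOpen_iInter_of_finite fun k =>
      isOpen_iInter_of_finite fun _ => ?_)
    (isOpen_iInter_of_finite fun j => isOpen_iInter_of_finite fun s =>
      isOpen_iInter_of_finite fun _ => isOpen_iInter_of_finite fun l => ?_))
  · exact isOpen_lt (ceps k).norm continuous_const
  · exact (isOpen_lt (cXX k _).norm continuous_const).inter
      (isOpen_lt (cYY k _).norm continuous_const)
  · by_cases hSj : S j = true
    · simp only [hSj, if_true]
      exact isOpen_lt ((ceps l).mul ((cpos j).pow 2)).norm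
        (((continuous_const.sub (continuous_const.mul (cpos j))).norm.pow 2).div_const _)
    · simp only [hSj, if_false]
      exact isOpen_lt (ceps l).norm ((((cpos j).sub continuous_const).norm.pow 2).div_const _)

/-- The domain is open. -/
theorem P_open : IsOpen (R.dom S) := by
  rw [isOpen_iff_mem_nhds]
  intro p hp
  have h1 : ∀ᶠ q in 𝓝 p, q ∈ dom1 R S := dom1_open.mem_nhds (dom_sub_dom1 hp)
  have cpos : ∀ j, ContinuousAt (fun q : R.Sp => R.pos q j) p := fun j => (an_pos j).continuousAt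
  have csht : ∀ j, ContinuousAt (fun q : R.Sp => R.sht S q j) p := fun j => (an_sht hp j).continuousAt
  have h2 : ∀ i j : L, ∀ᶠ q in 𝓝 p, i ≠ j → i.2 = j.2 →
      (∀ k, ¬ (R.pl i = Sum.inl k ∧ R.pl j = Sum.inl k)) →
      ¬ Same (S i) (R.pos q i) (R.sht S q i) (S j) (R.pos q j) (R.sht S q j) := by
    intro i j
    by_cases hc : i ≠ j ∧ i.2 = j.2 ∧ (∀ k, ¬ (R.pl i = Sum.inl k ∧ R.pl j = Sum.inl k))
    · have h3 := hp.2.2.2.1 i j hc.1 hc.2.1 hc.2.2
      have h4 : ∀ᶠ q in 𝓝 p, ¬ Same (S i) (R.pos q i) (R.sht S q i) (S j) (R.pos q j)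
          (R.sht S q j) := by
        unfold Same at h3 ⊢
        by_cases hs : S i = S j
        · simp only [hs, if_true, not_and_or] at h3 ⊢
          rcases h3 with h3 | h3
          · have := ((cpos i).sub (cpos j)).eventually_ne (sub_ne_zero.2 h3)
            exact this.mono fun q hq => Or.inl fun e => hq (sub_eq_zero.2 e)
          · have := ((csht i).sub (csht j)).eventually_ne (sub_ne_zero.2 h3)
            exact this.mono fun q hq => Or.inr fun e => hq (by simpa [hs] using sub_eq_zero.2 e)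
        · simp only [hs, if_false, not_and_or] at h3 ⊢
          rcases h3 with h3 | h3
          · have := (((cpos i).mul (cpos j)).sub continuousAt_const).eventually_ne
              (sub_ne_zero.2 h3)
            exact this.mono fun q hq => Or.inl fun e => hq (sub_eq_zero.2 e)
          · have := ((csht j).sub ((csht i).mul ((cpos j).pow 3))).eventually_ne
              (sub_ne_zero.2 h3)
            exact this.mono fun q hq => Or.inr fun e => hq (sub_eq_zero.2 e)
      exact h4.mono fun q hq _ _ _ => hq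
    · refine Eventually.of_forall fun q h4 h5 h6 => ?_
      exact absurd ⟨h4, h5, h6⟩ hc
  have h5 : ∀ i j : L, ∀ k : Fin 3, ∀ᶠ q in 𝓝 p, R.pl i = Sum.inl k → R.pl j = Sum.inl k →
      i.2 = j.2 → R.rk i < R.rk j →
      ∏ g : Fin (R.n k + 1), (if R.rk i < (g : ℕ) ∧ (g : ℕ) ≤ R.rk j then q.1 ⟨k, g⟩ else 1) ≠ 1 := by
    intro i j k
    by_cases hc : R.pl i = Sum.inl k ∧ R.pl j = Sum.inl k ∧ i.2 = j.2 ∧ R.rk i < R.rk j
    · have h6 := hp.2.2.2.2 i j k hc.1 hc.2.1 hc.2.2.1 hc.2.2.2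
      have h7 : ContinuousAt (fun q : R.Sp => ∏ g : Fin (R.n k + 1),
          (if R.rk i < (g : ℕ) ∧ (g : ℕ) ≤ R.rk j then q.1 ⟨k, g⟩ else 1)) p := by
        refine AnalyticAt.continuousAt (𝕜 := ℂ) (Finset.analyticAt_fun_prod _ fun g _ => ?_)
        by_cases h : R.rk i < (g : ℕ) ∧ (g : ℕ) ≤ R.rk j
        · simp only [h, and_self, if_true]; exact an_gap _
        · simp only [h, if_false]; exact analyticAt_const
      exact (h7.eventually_ne h6).mono fun q hq _ _ _ _ => hq
    · exact Eventually.of_forall fun q h6 h7 h8 h9 => absurd ⟨h6, h7, h8, h9⟩ hc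
  filter_upwards [h1, eventually_all.2 fun i => eventually_all.2 fun j => h2 i j,
    eventually_all.2 fun i => eventually_all.2 fun j => eventually_all.2 fun k => h5 i j k]
    with q g1 g2 g3
  exact ⟨g1.1, g1.2.1, g1.2.2, g2, g3⟩

end Vale.Agent.P273.H724
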