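import Vale.Agent.P273.H724.Good0
import Vale.Agent.P273.H888.Real
import Vale.Agent.P273.H948.RealData

/-! Stable families over the regions at the theta point that realize the curves and the marks. -/

noncomputable section

namespace Vale.Agent.P273.H724

open Set Filter H95 H888
open scoped Topology
open Vale.Agent.P273.H183 (tot Fam)

variable {n : ℕ} {R : Region} {S : L → Bool}

/-- **A stable family near every point of the domain of the region.** -/
theorem real0' (κ : (Fin n → ℂ) ≃L[ℂ] R.Sp) (hS : Far R S) {c : Fin n → ℂ}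
    (hc : κ c ∈ R.dom S) :
    ∃ C : Fam L n, Real κ R.psi S (R.sht S) C ∧ c ∈ C.B ∧ ∀ b ∈ C.B, κ b ∈ R.dom S := by
  have hc' : c ∈ base0 κ S := hc
  have : Nonempty (tot (base0 κ S) (co0 κ)) := H948.nonempty_tot hc'
  obtain ⟨C, h1, h2, h3, r, h4⟩ := H948.real_data (W := base0 κ S) (a := co0 κ) (S := S)
    (z := z0 κ) (v := v0 κ S) (Λ := lab0 κ) base0_open (fun b _ => co0_an b) co0_K
    (fun j b _ => z0_an j b) (fun j b hb => v0_an j hb) (fun j b hb => sq0 hS j hb) hc'
    (good0 hS hc')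
  refine ⟨C, ⟨h3, ⟨base0 κ S, base0_open, fun b _ => co0_an b, co0_K, this, r, h2, h4⟩,
    fun j b _ => z0_an j b, fun j b hb => v0_an j (h2 hb), fun j b hb => sq0 hS j (h2 hb)⟩, h1, h2⟩

/-- The form with the coordinates of 680. -/
theorem real0 (hS : Far R S) {p₀ : R.Sp} (hp : p₀ ∈ R.dom S) :
    ∃ C : Fam L 17, Real (H680.k17 R) R.psi S (R.sht S) C ∧ (H680.k17 R).symm p₀ ∈ C.B ∧
      ∀ b ∈ C.B, H680.k17 R b ∈ R.dom S :=
  real0' (H680.k17 R) hS (by simpa using hp)

end Vale.Agent.P273.H724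

end
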