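import Vale.Agent.P273.H888.PosP
import Vale.Agent.P273.H768.Word

/-! The neck model of the start family at a node and the marks in its coordinates. -/

noncomputable section

namespace Vale.Agent.P273.H724

open Set Filter
open scoped Topology
open Vale.Agent.P273.H948 (Surf PFam IsModel IsSec)
open Vale.Agent.P273.H183

variable {m : ℕ} {B : Set (Fin m → ℂ)} {a : (Fin m → ℂ) → Fin 6 → ℂ}
variable (hB : IsOpen B) (ha : ∀ b ∈ B, AnalyticAt ℂ a b) (hK : ∀ b ∈ B, a b ∈ K6)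

/-- The neck model at the position `(z c, 0)`; the marks with `z = e + (X + Y)/2` and
`y = G (X - Y)/2` have the coordinates `X`, `Y`. -/
theorem neck_model [Nonempty (tot B a)] {e ε z v : (Fin m → ℂ) → ℂ} {c : Fin m → ℂ}
    {G : (Fin m → ℂ) × ℂ → ℂ} (hc : c ∈ B) (hv : v c = 0) (hsq : v c ^ 2 = sx (a c) (z c))
    (he : AnalyticAt ℂ e c) (hε : AnalyticAt ℂ ε c)
    (hG : AnalyticAt ℂ G (c, z c)) (hG0 : G (c, z c) ≠ 0)
    (hf : ∀ᶠ w in 𝓝 ((c, z c) : (Fin m → ℂ) × ℂ),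
      sx (a w.1) w.2 = ((w.2 - e w.1) ^ 2 - ε w.1) * G w ^ 2) :
    ∃ (U : Set (tot B a)) (u v' : tot B a → ℂ), secA z v c ∈ U ∧
      IsModel (startS B a hB ha hK).π (startS B a hB ha hK).hol U u v' ε ∧
      ∀ z₁ v₁ X Y : (Fin m → ℂ) → ℂ, ContinuousAt z₁ c → z₁ c = z c →
        (∀ᶠ b in 𝓝 c, v₁ b ^ 2 = sx (a b) (z₁ b)) →
        (∀ᶠ b in 𝓝 c, z₁ b = e b + (X b + Y b) / 2) →
        (∀ᶠ b in 𝓝 c, v₁ b = G (b, z₁ b) * (X b - Y b) / 2) →
        ∀ᶠ b in 𝓝 c, u (secA z₁ v₁ b) = X b ∧ v' (secA z₁ v₁ b) = Y b := by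
  have hm : (c, z c, v c) ∈ Zaff B a := ⟨hc, hsq⟩
  have hP : (secA z v c : tot B a) ∈ (aff : Set (tot B a)) := secA_mem hm
  have hpr : pr (secA z v c : tot B a) = c := by
    have := cA_secA (B := B) (a := a) hm
    rw [cA_eq] at this
    exact congrArg Prod.fst this
  have hx : xC (secA z v c : tot B a) = z c := by rw [xC, cA_secA hm]
  have hy : yC (secA z v c : tot B a) = 0 := by rw [yC, cA_secA hm]; exact hv
  obtain ⟨U, h1, -, h2⟩ := start_neckModel (e := e) (ε := ε) (G := G) hB ha hK hP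
    (by rw [hpr]; exact he) (by rw [hpr]; exact hε) hy
    (by rw [hpr, hx]; exact hG) (by rw [hpr, hx]; exact hG0) (by rw [hpr, hx]; exact hf)
  refine ⟨U, _, _, h1, h2, fun z₁ v₁ X Y k1 k2 k3 k4 k5 => ?_⟩
  have k6 : ContinuousAt (fun b => (b, z₁ b)) c := continuousAt_id.prodMk k1
  have k7 : ∀ᶠ b in 𝓝 c, G (b, z₁ b) ≠ 0 := by
    have : ContinuousAt (fun b => G (b, z₁ b)) c := by
      refine ContinuousAt.comp (g := G) ?_ k6
      rw [k2]; exact hG.continuousAt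
    refine this.eventually_ne ?_
    rw [k2]; exact hG0
  filter_upwards [k3, k4, k5, k7, hB.mem_nhds hc] with b g3 g4 g5 g7 g8
  have hmb : (b, z₁ b, v₁ b) ∈ Zaff B a := ⟨g8, g3⟩
  have e1 : pr (secA z₁ v₁ b : tot B a) = b := by
    have := cA_secA (B := B) (a := a) hmb
    rw [cA_eq] at this
    exact congrArg Prod.fst this
  have e2 : xC (secA z₁ v₁ b : tot B a) = z₁ b := by rw [xC, cA_secA hmb]
  have e3 : yC (secA z₁ v₁ b : tot B a) = v₁ b := by rw [yC, cA_secA hmb]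
  simp only [e1, e2, e3]
  have e4 : v₁ b / G (b, z₁ b) = (X b - Y b) / 2 := by
    rw [g5]; field_simp
  rw [e4, g4]
  constructor <;> ring

end Vale.Agent.P273.H724

end
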