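import Vale.Agent.P273.H724.Mu0
import Vale.Agent.P273.H724.NeckM
import Vale.Agent.P273.H888.ExtH

/-! The start family over a region at the theta point: the positions of the marks are good at
every point of the domain of the region. -/

noncomputable section

namespace Vale.Agent.P273.H724

open Set Filter H95 H888
open scoped Topology
open Vale.Agent.P273.H948 (Surf PFam IsModel IsSec State)
open Vale.Agent.P273.H768 (Lab Good Sm Nd)
open Vale.Agent.P273.H183 (tot startS startP secA)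

/-! ### Analyticity of `G_k` in all variables -/

theorem an_gk' {A : Type*} [NormedAddCommGroup A] [NormedSpace ℂ A] {q : A}
    {ε : A → Fin 3 → ℂ} {x : A → ℂ} (k : Fin 3) (hε : ∀ l, AnalyticAt ℂ (fun q => ε q l) q)
    (hx : AnalyticAt ℂ x q) (h : ∀ l, l ≠ k → ‖ε q l‖ < 1 * ‖x q - ctr l‖ ^ 2) :
    AnalyticAt ℂ (fun q => gk (ε q) k (x q)) q := by
  refine Finset.analyticAt_fun_prod _ fun l _ => ?_
  by_cases hl : l = k
  · simp only [hl, if_true]; exact analyticAt_const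
  · simp only [hl, if_false]
    exact an_factor (hε l) (hx.sub analyticAt_const) (h l hl)

variable {n : ℕ} {R : Region} (κ : (Fin n → ℂ) ≃L[ℂ] R.Sp) (S : L → Bool)

/-- Base of the family. -/
def base0 : Set (Fin n → ℂ) := κ ⁻¹' R.dom S
/-- Coefficients. -/
def co0 (b : Fin n → ℂ) : Fin 6 → ℂ := (R.psi (κ b)).1
/-- Coordinates of the marks. -/
def z0 (j : L) (b : Fin n → ℂ) : ℂ := (R.psi (κ b)).2 j
/-- Sheets. -/
def v0 (j : L) (b : Fin n → ℂ) : ℂ := R.sht S (κ b) j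
/-- Types, ranks and transition factors. -/
def lab0 : Lab L n where
  typ j := j.2
  rk := R.rk
  μ i j b := mu R (κ b) i j

variable {κ S}

theorem an_k (b : Fin n → ℂ) : AnalyticAt ℂ (κ : (Fin n → ℂ) → R.Sp) b :=
  (κ : (Fin n → ℂ) →L[ℂ] R.Sp).analyticAt b

theorem base0_open : IsOpen (base0 κ S) := P_open.preimage κ.continuous

theorem co0_an (b : Fin n → ℂ) : AnalyticAt ℂ (co0 κ) b :=
  AnalyticAt.comp (g := fun q : R.Sp => thA (R.eps q)) an_thA' (an_k b)

theorem co0_K : ∀ b ∈ base0 κ S, co0 κ b ∈ H183.K6 := fun b hb => by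
  rw [← K6_eq]; exact P_K6 hb

theorem z0_an (j : L) (b : Fin n → ℂ) : AnalyticAt ℂ (z0 κ j) b :=
  AnalyticAt.comp (g := fun q : R.Sp => R.pos q j) (an_pos j) (an_k b)

theorem v0_an (j : L) {b : Fin n → ℂ} (hb : b ∈ base0 κ S) : AnalyticAt ℂ (v0 κ S j) b :=
  AnalyticAt.comp (g := fun q : R.Sp => R.sht S q j) (an_sht hb j) (an_k b)

theorem sq0 (hS : Far R S) (j : L) {b : Fin n → ℂ} (hb : b ∈ base0 κ S) :
    v0 κ S j b ^ 2 = pol (S j) (co0 κ b) (z0 κ j b) := P_sq hS hb j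

/-- The start family. -/
abbrev st0 (κ : (Fin n → ℂ) ≃L[ℂ] R.Sp) (S : L → Bool) : Surf n :=
  startS (base0 κ S) (co0 κ) base0_open (fun b _ => co0_an b) co0_K

/-- The positions. -/
def P0 (κ : (Fin n → ℂ) ≃L[ℂ] R.Sp) (S : L → Bool) [Nonempty (tot (base0 κ S) (co0 κ))] (j : L) :
    (Fin n → ℂ) → (st0 κ S).X := posP (S j) (z0 κ j) (v0 κ S j)

variable [Nonempty (tot (base0 κ S) (co0 κ))]

theorem isSec0 (hS : Far R S) (j : L) : IsSec (st0 κ S) (base0 κ S) (P0 κ S j) :=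
  isSec_posP _ _ _ base0_open subset_rfl (fun b _ => z0_an j b) (fun _ hb => v0_an j hb)
    fun _ hb => sq0 hS j hb

theorem P0_eq_iff (hS : Far R S) (i j : L) {b : Fin n → ℂ} (hb : b ∈ base0 κ S) :
    P0 κ S i b = P0 κ S j b ↔ Same (S i) (R.pos (κ b) i) (R.sht S (κ b) i) (S j)
      (R.pos (κ b) j) (R.sht S (κ b) j) :=
  posP_eq_iff hb (sq0 hS i hb) (sq0 hS j hb)

theorem P0_neck (hS : Far R S) {j : L} {k : Fin 3} (hj : R.pl j = Sum.inl k) :
    P0 κ S j = secA (z0 κ j) (v0 κ S j) := by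
  funext b
  simp only [P0, posP, neck_S hS hj, Bool.false_eq_true, if_false]
  rfl

/-- The neck model at the position of a neck mark with `y = 0`. -/
theorem model0 (hS : Far R S) {c : Fin n → ℂ} (hc : c ∈ base0 κ S) {j : L} {k : Fin 3}
    (hj : R.pl j = Sum.inl k) (hv : R.sht S (κ c) j = 0) :
    ∃ (U : Set (st0 κ S).X) (u v : (st0 κ S).X → ℂ) (t : (Fin n → ℂ) → ℂ), P0 κ S j c ∈ U ∧
      IsModel (st0 κ S).π (st0 κ S).hol U u v t ∧
      ∀ i, R.pl i = Sum.inl k → R.pos (κ c) i = R.pos (κ c) j →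
        ∀ᶠ b in 𝓝 c, u (P0 κ S i b) = R.XX (κ b) k (R.rk i) ∧
          v (P0 κ S i b) = R.YY (κ b) k (R.rk i) := by
  have hbn := base0_open.mem_nhds hc
  have hko := an_k (κ := κ) c
  have hpos : ‖R.pos (κ c) j - ctr k‖ < 1 / 8 := neck_near hc hj
  have hfac : ∀ l, l ≠ k → ‖R.eps (κ c) l‖ < 1 * ‖R.pos (κ c) j - ctr l‖ ^ 2 := fun l hl =>
    neck_cond hc hj l hl
  have h1 : AnalyticAt ℂ (fun w : (Fin n → ℂ) × ℂ => gk (R.eps (κ w.1)) k w.2)
      (c, z0 κ j c) := by
    refine an_gk' k (fun l => ?_) analyticAt_snd hfac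
    have h2 : AnalyticAt ℂ (fun q : Fin n → ℂ => R.eps (κ q) l) c :=
      AnalyticAt.comp (g := fun q : R.Sp => R.eps q l) (an_eps l) hko
    exact AnalyticAt.comp (g := fun q : Fin n → ℂ => R.eps (κ q) l)
      (f := fun w : (Fin n → ℂ) × ℂ => w.1) h2 analyticAt_fst
  have h3 : ∀ᶠ w in 𝓝 ((c, z0 κ j c) : (Fin n → ℂ) × ℂ),
      H183.sx (co0 κ w.1) w.2 = ((w.2 - ctr k) ^ 2 - R.eps (κ w.1) k) *
        gk (R.eps (κ w.1)) k w.2 ^ 2 := by
    have h4 : ∀ᶠ w in 𝓝 ((c, z0 κ j c) : (Fin n → ℂ) × ℂ), ∀ l, l ≠ k → w.2 - ctr l ≠ 0 := by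
      rw [eventually_all]
      intro l
      by_cases hl : l = k
      · exact Eventually.of_forall fun w h => absurd hl h
      · have h5 : ContinuousAt (fun w : (Fin n → ℂ) × ℂ => w.2 - ctr l) (c, z0 κ j c) :=
          continuousAt_snd.sub continuousAt_const
        have h6 : (fun w : (Fin n → ℂ) × ℂ => w.2 - ctr l) (c, z0 κ j c) ≠ 0 :=
          neck_sub_ne hc hj l hl
        exact (h5.eventually_ne h6).mono fun w hw _ => hw
    filter_upwards [h4] with w hw
    have e1 : H183.sx (co0 κ w.1) w.2 = H95.sx (thA (R.eps (κ w.1))) w.2 := (sx_eq _ _).symm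
    rw [e1, sx_thA, prod_neck hw]
  obtain ⟨U, u, v, g1, g2, g3⟩ := neck_model (B := base0 κ S) (a := co0 κ) base0_open
    (fun b _ => co0_an b) co0_K (e := fun _ => ctr k) (ε := fun b => R.eps (κ b) k)
    (z := z0 κ j) (v := v0 κ S j) (c := c)
    (G := fun w : (Fin n → ℂ) × ℂ => gk (R.eps (κ w.1)) k w.2) hc hv
    (by have := sq0 hS j hc; rwa [neck_S hS hj, pol_false] at this) analyticAt_const
    (AnalyticAt.comp (g := fun q : R.Sp => R.eps q k) (an_eps k) hko) h1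
    (gk_ne hfac) h3
  refine ⟨U, u, v, _, by rw [P0_neck hS hj]; exact g1, g2, fun i hi hij => ?_⟩
  rw [P0_neck hS hi]
  refine g3 (z0 κ i) (v0 κ S i) (fun b => R.XX (κ b) k (R.rk i)) (fun b => R.YY (κ b) k (R.rk i))
    (z0_an i c).continuousAt hij ?_ ?_ ?_
  · filter_upwards [hbn] with b hb
    have := sq0 hS i hb
    rwa [neck_S hS hi, pol_false] at this
  · exact Eventually.of_forall fun b => pos_neck (κ b) hi
  · exact Eventually.of_forall fun b => sht_neck (κ b) hi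

/-- The position of a mark is a smooth point of the curve unless the mark is at a node. -/
theorem smooth0 (hS : Far R S) {c : Fin n → ℂ} (hc : c ∈ base0 κ S) {j : L}
    (h : ∀ k, R.pl j = Sum.inl k → ¬ (R.XX (κ c) k (R.rk j) = 0 ∧ R.YY (κ c) k (R.rk j) = 0)) :
    (st0 κ S).SmoothAt (P0 κ S j c) := by
  by_cases hv : R.sht S (κ c) j = 0
  · rcases hj : R.pl j with k | s
    · obtain ⟨U, u, v, t, h1, h2, h3⟩ := model0 hS hc hj hv
      obtain ⟨h4, h5⟩ := (h3 j hj rfl).self_of_nhds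
      refine ⟨U, u, v, t, h1, h2, ?_⟩
      rw [h4, h5]
      have := h k hj
      tauto
    · exact absurd hv (sht_core_ne hc hj)
  · exact smooth_posP _ _ _ hc (sq0 hS j hc) hv

/-- **The positions are good** at every point of the domain. -/
theorem good0 (hS : Far R S) {c : Fin n → ℂ} (hc : c ∈ base0 κ S) :
    Good (lab0 κ) (st0 κ S) id (P0 κ S) c := by
  intro j
  by_cases hj : ∃ k, R.pl j = Sum.inl k ∧ R.XX (κ c) k (R.rk j) = 0 ∧ R.YY (κ c) k (R.rk j) = 0
  · right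
    obtain ⟨k, hk, hX, hY⟩ := hj
    have hv : R.sht S (κ c) j = 0 := (sht_neck_zero hc hk).2 (by rw [hX, hY])
    have key : ∀ i, P0 κ S i c = P0 κ S j c → R.pl i = Sum.inl k := fun i hi =>
      (same_node hS hc hk hX hY ((P0_eq_iff hS i j hc).1 hi)).1
    obtain ⟨U, u, v, t, h1, h2, h3⟩ := model0 hS hc hk hv
    have hpos : ∀ i, P0 κ S i c = P0 κ S j c → R.pos (κ c) i = R.pos (κ c) j := by
      intro i hi
      have e := (P0_eq_iff hS i j hc).1 hi
      rw [neck_S hS (key i hi), neck_S hS hk, Same, if_pos rfl] at e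
      exact e.1
    have hcoord := (h3 j hk rfl).self_of_nhds
    refine ⟨⟨?_, ?_, ?_, ?_⟩, U, u, v, t, h1, h2, ?_, ?_, ?_, ?_⟩
    · intro i hi l hl e
      exact R.rk_inj i l k (key i hi) (key l hl) e
    · intro i _ l _ _
      exact AnalyticAt.comp (g := fun q : R.Sp => mu R q i l) (an_mu i l) (an_k c)
    · intro i hi l hl o _ hil hlo
      exact Eventually.of_forall fun b =>
        mu_mul (κ b) (key i hi) (key l hl) (le_of_lt hil) (le_of_lt hlo)
    · intro i hi l hl hil he ht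
      exact mu_ne_one hc (key i hi) (key l hl) ht hil he
    · rw [hcoord.1, hX]
    · rw [hcoord.2, hY]
    · intro y hy hu hv' hs
      rcases hs.all hy h2 with h | h
      · exact h hu
      · exact h hv'
    · intro i l hi hl hil
      filter_upwards [h3 i (key i hi) (hpos i hi), h3 l (key l hl) (hpos l hl)] with b k1 k2
      rw [k1.2, k2.1, k1.1, k2.2]
      exact ⟨XX_mu (κ b) (key i hi) (le_of_lt hil), YY_mu (κ b) (key i hi) (le_of_lt hil)⟩
  · left
    refine ⟨smooth0 hS hc fun k hk h => hj ⟨k, hk, h⟩, fun i hi e ht => ?_⟩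
    obtain ⟨k, -, hk, hX, hY⟩ := same_type hS hc hi ht ((P0_eq_iff hS i j hc).1 e)
    exact hj ⟨k, hk, hX, hY⟩

end Vale.Agent.P273.H724

end
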