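import Vale.Agent.P273.H724.Good0

/-! The start family over any open set inside the domain of a region at the theta point, with
explicit neck coordinates. -/

noncomputable section

namespace Vale.Agent.P273.H724

open Set Filter H95 H888
open scoped Topology
open Vale.Agent.P273.H948 (Surf PFam IsModel IsSec State)
open Vale.Agent.P273.H768 (Lab Good Sm Nd)
open Vale.Agent.P273.H183 (tot startS startP secA pA Zaff aff xC yC pr cA_secA cA_eq)

variable {n : ℕ} {R : Region} {κ : (Fin n → ℂ) ≃L[ℂ] R.Sp} {S : L → Bool} {W : Set (Fin n → ℂ)}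

/-- An open set of base points inside the domain. -/
structure Base0 (κ : (Fin n → ℂ) ≃L[ℂ] R.Sp) (S : L → Bool) (W : Set (Fin n → ℂ)) : Prop where
  opn : IsOpen W
  dom : ∀ b ∈ W, κ b ∈ R.dom S

theorem base0_base0 : Base0 κ S (base0 κ S) := ⟨base0_open, fun _ h => h⟩

theorem Base0.K (D : Base0 κ S W) : ∀ b ∈ W, co0 κ b ∈ H183.K6 := fun b hb => by
  rw [← K6_eq]; exact P_K6 (D.dom b hb)

/-- The surface. -/
abbrev sW (D : Base0 κ S W) : Surf n := startS W (co0 κ) D.opn (fun b _ => co0_an b) D.K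

/-- The positions of the marks. -/
def PW (κ : (Fin n → ℂ) ≃L[ℂ] R.Sp) (S : L → Bool) (W : Set (Fin n → ℂ))
    [Nonempty (tot W (co0 κ))] (j : L) : (Fin n → ℂ) → tot W (co0 κ) :=
  posP (S j) (z0 κ j) (v0 κ S j)

/-- First neck coordinate. -/
def uN (κ : (Fin n → ℂ) ≃L[ℂ] R.Sp) (W : Set (Fin n → ℂ)) (k : Fin 3) (Q : tot W (co0 κ)) : ℂ :=
  xC Q - ctr k + yC Q / gk (R.eps (κ (pr Q))) k (xC Q)

/-- Second neck coordinate. -/
def vN (κ : (Fin n → ℂ) ≃L[ℂ] R.Sp) (W : Set (Fin n → ℂ)) (k : Fin 3) (Q : tot W (co0 κ)) : ℂ :=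
  xC Q - ctr k - yC Q / gk (R.eps (κ (pr Q))) k (xC Q)

theorem pA_coord {c : Fin n → ℂ} {x y : ℂ} (h : (c, x, y) ∈ Zaff W (co0 κ)) :
    pr (pA c x y h : tot W (co0 κ)) = c ∧ xC (pA c x y h : tot W (co0 κ)) = x ∧
      yC (pA c x y h : tot W (co0 κ)) = y := by
  have h1 := H183.cA_ptA ⟨(c, x, y), h⟩
  rw [cA_eq] at h1
  obtain ⟨h2, h3⟩ := Prod.mk.inj h1
  obtain ⟨h4, h5⟩ := Prod.mk.inj h3
  exact ⟨h2, h4, h5⟩

theorem eps_lt (D : Base0 κ S W) {c : Fin n → ℂ} (hc : c ∈ W) (k : Fin 3) :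
    ‖R.eps (κ c) k‖ < 1 / 4096 := dom_eps (D.dom c hc) k

theorem near_fac (D : Base0 κ S W) {c : Fin n → ℂ} (hc : c ∈ W) {k : Fin 3} {x : ℂ}
    (hx : ‖x - ctr k‖ < 1 / 8) (l : Fin 3) (hl : l ≠ k) :
    ‖R.eps (κ c) l‖ < 1 * ‖x - ctr l‖ ^ 2 := far_frac (eps_lt D hc l) (neck_far hl hx)

theorem near_sub_ne {k : Fin 3} {x : ℂ} (hx : ‖x - ctr k‖ < 1 / 8) (l : Fin 3) (hl : l ≠ k) :
    x - ctr l ≠ 0 := fun e => by
  have := neck_far hl hx
  rw [e, norm_zero] at this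
  linarith

/-- **The explicit neck model** at a point with `y = 0` near the centre of the neck `k` (at the node
itself if `ε_k = 0`). -/
theorem modelN (D : Base0 κ S W) {c : Fin n → ℂ} (hc : c ∈ W) {k : Fin 3} {x : ℂ}
    (hx : ‖x - ctr k‖ < 1 / 8) (h : (c, x, (0 : ℂ)) ∈ Zaff W (co0 κ)) :
    ∃ U : Set (tot W (co0 κ)), pA c x 0 h ∈ U ∧ U ⊆ aff ∧
      IsModel (sW D).π (sW D).hol U (uN κ W k) (vN κ W k) (fun b => R.eps (κ b) k) := by
  obtain ⟨e1, e2, e3⟩ := pA_coord h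
  have hko := an_k (κ := κ) c
  have hfac := near_fac D hc hx
  have h1 : AnalyticAt ℂ (fun w : (Fin n → ℂ) × ℂ => gk (R.eps (κ w.1)) k w.2) (c, x) := by
    refine an_gk' k (fun l => ?_) analyticAt_snd hfac
    have h2 : AnalyticAt ℂ (fun q : Fin n → ℂ => R.eps (κ q) l) c :=
      AnalyticAt.comp (g := fun q : R.Sp => R.eps q l) (an_eps l) hko
    exact AnalyticAt.comp (g := fun q : Fin n → ℂ => R.eps (κ q) l)
      (f := fun w : (Fin n → ℂ) × ℂ => w.1) h2 analyticAt_fst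
  have h3 : ∀ᶠ w in 𝓝 ((c, x) : (Fin n → ℂ) × ℂ),
      H183.sx (co0 κ w.1) w.2 = ((w.2 - ctr k) ^ 2 - R.eps (κ w.1) k) *
        gk (R.eps (κ w.1)) k w.2 ^ 2 := by
    have h4 : ∀ᶠ w in 𝓝 ((c, x) : (Fin n → ℂ) × ℂ), ∀ l, l ≠ k → w.2 - ctr l ≠ 0 := by
      rw [eventually_all]
      intro l
      by_cases hl : l = k
      · exact Eventually.of_forall fun w h => absurd hl h
      · have h5 : ContinuousAt (fun w : (Fin n → ℂ) × ℂ => w.2 - ctr l) (c, x) :=
          continuousAt_snd.sub continuousAt_const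
        exact (h5.eventually_ne (near_sub_ne hx l hl)).mono fun w hw _ => hw
    filter_upwards [h4] with w hw
    have e1 : H183.sx (co0 κ w.1) w.2 = H95.sx (thA (R.eps (κ w.1))) w.2 := (sx_eq _ _).symm
    rw [e1, sx_thA, prod_neck hw]
  have hP : (pA c x 0 h : tot W (co0 κ)) ∈ (aff : Set (tot W (co0 κ))) := H183.ptA_mem _
  exact H183.start_neckModel (e := fun _ => ctr k) (ε := fun b => R.eps (κ b) k)
    (G := fun w : (Fin n → ℂ) × ℂ => gk (R.eps (κ w.1)) k w.2) D.opn (fun b _ => co0_an b) D.K hP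
    analyticAt_const
    (by rw [e1]; exact AnalyticAt.comp (g := fun q : R.Sp => R.eps q k) (an_eps k) hko) e3
    (by rw [e1, e2]; exact h1) (by rw [e1, e2]; exact gk_ne hfac) (by rw [e1, e2]; exact h3)

/-- The equation of the curve at a root. -/
theorem memZ {x : ℂ} {c : Fin n → ℂ} (hc : c ∈ W) (h : H183.sx (co0 κ c) x = 0) :
    (c, x, (0 : ℂ)) ∈ Zaff W (co0 κ) := ⟨hc, by simp [h]⟩

/-- The node of a closed neck is a point of the curve. -/
theorem memZ_node {c : Fin n → ℂ} (hc : c ∈ W) {k : Fin 3} (h : R.eps (κ c) k = 0) :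
    (c, ctr k, (0 : ℂ)) ∈ Zaff W (co0 κ) := by
  refine ⟨hc, ?_⟩
  have e : H183.sx (co0 κ c) (ctr k) = H95.sx (thA (R.eps (κ c))) (ctr k) := (sx_eq _ _).symm
  rw [e, sx_thA, Finset.prod_eq_zero (Finset.mem_univ k) (by rw [h]; ring)]
  simp

theorem sqW (D : Base0 κ S W) (hS : Far R S) (j : L) {b : Fin n → ℂ} (hb : b ∈ W) :
    v0 κ S j b ^ 2 = pol (S j) (co0 κ b) (z0 κ j b) := P_sq hS (D.dom b hb) j

theorem memZ_neck (D : Base0 κ S W) (hS : Far R S) {j : L} {k : Fin 3} (hj : R.pl j = Sum.inl k)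
    {b : Fin n → ℂ} (hb : b ∈ W) : (b, R.pos (κ b) j, R.sht S (κ b) j) ∈ Zaff W (co0 κ) := by
  have := sqW D hS j hb
  rw [neck_S hS hj, pol_false] at this
  exact ⟨hb, this⟩

/-- The neck coordinates of the node are zero. -/
theorem uN_node {c : Fin n → ℂ} {k : Fin 3} (h : (c, ctr k, (0 : ℂ)) ∈ Zaff W (co0 κ)) :
    uN κ W k (pA c (ctr k) 0 h) = 0 ∧ vN κ W k (pA c (ctr k) 0 h) = 0 := by
  obtain ⟨e1, e2, e3⟩ := pA_coord h
  simp [uN, vN, e2, e3]

variable [Nonempty (tot W (co0 κ))]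

theorem isSecW (D : Base0 κ S W) (hS : Far R S) (j : L) : IsSec (sW D) W (PW κ S W j) :=
  isSec_posP _ _ _ D.opn subset_rfl (fun b _ => z0_an j b) (fun b hb => v0_an j (D.dom b hb))
    fun _ hb => sqW D hS j hb

theorem PW_eq_iff (D : Base0 κ S W) (hS : Far R S) (i j : L) {b : Fin n → ℂ} (hb : b ∈ W) :
    PW κ S W i b = PW κ S W j b ↔ Same (S i) (R.pos (κ b) i) (R.sht S (κ b) i) (S j)
      (R.pos (κ b) j) (R.sht S (κ b) j) :=
  posP_eq_iff hb (sqW D hS i hb) (sqW D hS j hb)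

theorem PW_neck (D : Base0 κ S W) (hS : Far R S) {j : L} {k : Fin 3} (hj : R.pl j = Sum.inl k)
    {b : Fin n → ℂ} (hb : b ∈ W) :
    PW κ S W j b = pA b (R.pos (κ b) j) (R.sht S (κ b) j) (memZ_neck D hS hj hb) := by
  have e : PW κ S W j = secA (z0 κ j) (v0 κ S j) := by
    funext b
    simp only [PW, posP, neck_S hS hj, Bool.false_eq_true, if_false]
  rw [e]
  exact H183.secA_eq (memZ_neck D hS hj hb)

/-- The neck coordinates of the neck marks. -/
theorem uN_pos (D : Base0 κ S W) (hS : Far R S) {j : L} {k : Fin 3} (hj : R.pl j = Sum.inl k)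
    {b : Fin n → ℂ} (hb : b ∈ W) :
    uN κ W k (PW κ S W j b) = R.XX (κ b) k (R.rk j) ∧
      vN κ W k (PW κ S W j b) = R.YY (κ b) k (R.rk j) := by
  rw [PW_neck D hS hj hb]
  obtain ⟨e1, e2, e3⟩ := pA_coord (memZ_neck D hS hj hb)
  have h0 := gk_pos_ne (D.dom b hb) hj
  have e4 : R.sht S (κ b) j / gk (R.eps (κ b)) k (R.pos (κ b) j) =
      (R.XX (κ b) k (R.rk j) - R.YY (κ b) k (R.rk j)) / 2 := by
    rw [sht_neck (κ b) hj]; field_simp
  have e5 := pos_neck (κ b) hj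
  simp only [uN, vN, e1, e2, e3, e4]
  rw [e5]
  constructor <;> ring

/-- Which marks are at the node of the neck `k`. -/
theorem PW_eq_node (D : Base0 κ S W) (hS : Far R S) {b : Fin n → ℂ} (hb : b ∈ W) {k : Fin 3}
    (h : (b, ctr k, (0 : ℂ)) ∈ Zaff W (co0 κ)) (j : L) :
    PW κ S W j b = pA b (ctr k) 0 h ↔
      R.pl j = Sum.inl k ∧ R.XX (κ b) k (R.rk j) = 0 ∧ R.YY (κ b) k (R.rk j) = 0 := by
  constructor
  · intro e
    have hd := D.dom b hb
    have hz : pol false (co0 κ b) (ctr k) = (0 : ℂ) ^ 2 := by rw [pol_false]; exact h.2.symm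
    have e' : PW κ S W j b = posP false (fun _ => ctr k) (fun _ => (0 : ℂ)) b := by
      rw [e]
      simp only [posP, Bool.false_eq_true, if_false]
      exact (H183.secA_eq (x := fun _ => ctr k) (y := fun _ => (0 : ℂ)) h).symm
    have h1 := (posP_eq_iff (z' := fun _ => ctr k) (v' := fun _ => (0 : ℂ)) hb (sqW D hS j hb)
      hz.symm).1 e'
    have h2 : R.sht S (κ b) j = 0 := same_zero h1 rfl
    rcases hj : R.pl j with l | s
    · rw [neck_S hS hj, Same, if_pos rfl] at h1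
      have h3 : R.pos (κ b) j = ctr k := h1.1
      have hlk : l = k := by
        by_contra hlk
        have h4 := neck_near hd hj
        rw [h3] at h4
        linarith [ctr_sub k l hlk]
      subst hlk
      have h4 := (sht_neck_zero hd hj).1 h2
      have h5 := pos_neck (κ b) hj
      rw [h3, h4] at h5
      have h6 : R.YY (κ b) l (R.rk j) = 0 := by linear_combination -h5
      exact ⟨rfl, h4.trans h6, h6⟩
    · exact absurd h2 (sht_core_ne hd hj)
  · rintro ⟨hj, hX, hY⟩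
    rw [PW_neck D hS hj hb, H183.pA_inj]
    refine ⟨rfl, ?_, ?_⟩
    · rw [pos_neck (κ b) hj, hX, hY]; ring
    · rw [sht_neck (κ b) hj, hX, hY]; ring

/-- The position of a mark is a smooth point unless the mark is at a node. -/
theorem smoothW (D : Base0 κ S W) (hS : Far R S) {c : Fin n → ℂ} (hc : c ∈ W) {j : L}
    (h : ∀ k, R.pl j = Sum.inl k → ¬ (R.XX (κ c) k (R.rk j) = 0 ∧ R.YY (κ c) k (R.rk j) = 0)) :
    (sW D).SmoothAt (PW κ S W j c) := by
  by_cases hv : R.sht S (κ c) j = 0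
  · rcases hj : R.pl j with k | s
    · have hm : (c, R.pos (κ c) j, (0 : ℂ)) ∈ Zaff W (co0 κ) := by
        have := memZ_neck D hS hj hc
        rwa [hv] at this
      obtain ⟨U, h1, -, h2⟩ := modelN D hc (neck_near (D.dom c hc) hj) hm
      have e : PW κ S W j c = pA c (R.pos (κ c) j) 0 hm := by
        rw [PW_neck D hS hj hc, H183.pA_inj]
        exact ⟨rfl, rfl, hv⟩
      obtain ⟨h4, h5⟩ := uN_pos D hS hj hc
      refine ⟨U, _, _, _, by rw [e]; exact h1, h2, ?_⟩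
      rw [h4, h5]
      have := h k hj
      tauto
    · exact absurd hv (sht_core_ne (D.dom c hc) hj)
  · exact smooth_posP _ _ _ hc (sqW D hS j hc) hv

/-- A mark at a node is not at a smooth point. -/
theorem not_smoothW (D : Base0 κ S W) (hS : Far R S) {c : Fin n → ℂ} (hc : c ∈ W) {j : L}
    {k : Fin 3} (hj : R.pl j = Sum.inl k) (hX : R.XX (κ c) k (R.rk j) = 0)
    (hY : R.YY (κ c) k (R.rk j) = 0) : ¬ (sW D).SmoothAt (PW κ S W j c) := by
  intro hs
  have he : R.eps (κ c) k = 0 := by rw [← XX_mul_YY (κ c) k (R.rk j), hX, zero_mul]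
  obtain ⟨U, h1, -, h2⟩ := modelN D hc (x := ctr k) (k := k) (by simp) (memZ_node hc he)
  have e := (PW_eq_node D hS hc (memZ_node hc he) j).2 ⟨hj, hX, hY⟩
  rw [← e] at h1
  obtain ⟨h4, h5⟩ := uN_pos D hS hj hc
  rcases hs.all h1 h2 with h | h
  · exact h (h4.trans hX)
  · exact h (h5.trans hY)

end Vale.Agent.P273.H724

end
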