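import Vale.Agent.P273.H778.T2Defs

/-! P273, (T2): a finite mark near a mark where the recursion is active is off the root discs. -/

noncomputable section

namespace Vale.Agent.P273.H724

open Set Filter H681 H95 H732 H562 H973 H578 H803 H778
open scoped Topology ContDiff

theorem norm_half (y α : ℝ) (hy : 0 ≤ y) :
    ‖(1 / 16 : ℂ) * Complex.exp ((-(y : ℂ) + (α : ℂ) * Complex.I) / 2)‖ ≤ 1 / 16 := by
  rw [norm_mul, Complex.norm_exp]
  have h1 : ((-(y : ℂ) + (α : ℂ) * Complex.I) / 2).re = -y / 2 := by simp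
  rw [h1]
  have h2 : Real.exp (-y / 2) ≤ 1 := Real.exp_le_one_iff.2 (by linarith)
  have h3 : ‖(1 / 16 : ℂ)‖ = 1 / 16 := by norm_num
  rw [h3]
  linarith

theorem norm_rootsL {y α : Fin 3 → ℝ} (hy : ∀ k, 0 ≤ y k) (i : Fin 6) :
    ‖rootsL y α i‖ ≤ 6 := by
  have key : ∀ (c : ℝ) (k : Fin 3), 0 ≤ c → c ≤ 11 / 2 → ∀ d : ℂ, ‖d‖ ≤ 1 / 16 →
      ‖(c : ℂ) + d‖ ≤ 6 ∧ ‖(c : ℂ) - d‖ ≤ 6 := by
    intro c _ h0 h1 d hd
    have h2 : ‖(c : ℂ)‖ = c := by rw [Complex.norm_real, Real.norm_of_nonneg h0]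
    exact ⟨(norm_add_le _ _).trans (by rw [h2]; linarith),
      (norm_sub_le _ _).trans (by rw [h2]; linarith)⟩
  have hd := fun k => norm_half (y k) (α k) (hy k)
  have k0 := key (3 / 2) 0 (by norm_num) (by norm_num) _ (hd 0)
  have k1 := key (7 / 2) 0 (by norm_num) (by norm_num) _ (hd 1)
  have k2 := key (11 / 2) 0 (by norm_num) (by norm_num) _ (hd 2)
  push_cast at k0 k1 k2
  fin_cases i
  · exact k0.2
  · exact k0.1
  · exact k1.2
  · exact k1.1
  · exact k2.2
  · exact k2.1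

/-- **A finite mark near an active mark.** -/
theorem act_near {R : H95.Region} {m : ∀ k, Fin (R.n k + 1)} {S : L → Bool} {p : Co R m}
    {t : Bool} {k l : Fin 7} (hy : ∀ k, 0 ≤ p.2.2.1 k) (h : Act' R m S p t k)
    (hl : fin S t (posE R m p) l) (hN : NrM R m S p t k l) : Act R m S p t l := by
  have hpos : ∀ i : Fin 6, 0 < 1 / 16 * Real.exp (-(p.2.2.1 (H738.kp i)) / 2) := fun i => by
    positivity
  have hoff : Off (bM R m p) (PMt R m S t k p).1 := by
    intro i e
    have h1 := h.off i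
    rw [xM, e, sub_self, norm_zero] at h1
    linarith [hpos i]
  have hr := rad_le (k : ℕ)
  have hd : ∀ i, ‖xM R m S t k p - xM R m S t l p‖ ≤ 1 / 256 * ‖xM R m S t k p - bM R m p i‖ := by
    intro i
    have h1 := hN.2
    have h2 := Hs_le hoff i
    have h3 := Hs_nonneg (bM R m p) (PMt R m S t k p).1
    have h4 : rad (k : ℕ) * Hs (bM R m p) (PMt R m S t k p).1 ≤
        1 / 256 * ‖(PMt R m S t k p).1 - bM R m p i‖ :=
      mul_le_mul hr h2 h3 (by norm_num)
    exact h1.le.trans h4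
  refine ⟨hl, fun i => ?_, ?_⟩
  · have h1 := h.off i
    have h2 := hd i
    have h3 : ‖xM R m S t k p - bM R m p i‖ ≤
        ‖xM R m S t k p - xM R m S t l p‖ + ‖xM R m S t l p - bM R m p i‖ :=
      norm_sub_le_norm_sub_add_norm_sub _ _ _
    have h4 := hpos i
    nlinarith
  · have h1 := h.zone
    have h2 := hd 0
    have h3 : ‖bM R m p 0‖ ≤ 6 := norm_rootsL hy 0
    have h4 := norm_sub_le (xM R m S t k p) (bM R m p 0)
    have h5 : ‖xM R m S t l p‖ ≤ ‖xM R m S t k p‖ + ‖xM R m S t k p - xM R m S t l p‖ := by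
      have := norm_sub_le (xM R m S t k p) (xM R m S t k p - xM R m S t l p)
      rwa [sub_sub_cancel] at this
    linarith

/-- The same at an admissible point. -/
theorem act_near' {R : H95.Region} {m : ∀ k, Fin (R.n k + 1)} {S : L → Bool} {p : Co R m}
    {t : Bool} {k l : Fin 7} {N₀ : ℝ} (hN₀ : 0 ≤ N₀) (hp : Adm R m S N₀ p)
    (h : Act' R m S p t k) (hl : fin S t (posE R m p) l) (hN : NrM R m S p t k l) :
    Act R m S p t l := act_near (fun k => hN₀.trans (hp.2.1 k)) h hl hN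

/-- An active mark of the smaller class is one of the larger class. -/
theorem act_of_act' {R : H95.Region} {m : ∀ k, Fin (R.n k + 1)} {S : L → Bool} {p : Co R m}
    {t : Bool} {k : Fin 7} (h : Act' R m S p t k) : Act R m S p t k :=
  ⟨h.fin, fun i => by
    have := h.off i
    have h5 : 0 < 1 / 16 * Real.exp (-(p.2.2.1 (H738.kp i)) / 2) := by positivity
    linarith, h.zone.trans (by norm_num)⟩

end Vale.Agent.P273.H724

end
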