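import Vale.Agent.P273.H724.RegAn

/-! The products of the gaps between two marks of a neck; when two marks of a region coincide. -/

noncomputable section

namespace Vale.Agent.P273.H724

open Set Filter H95
open scoped Topology

variable {R : Region} {S : L → Bool} {p : R.Sp}

/-- Product of the gaps between the marks `i` and `j` of one neck. -/
def mu (R : Region) (p : R.Sp) (i j : L) : ℂ :=
  match R.pl i with
  | Sum.inl k => ∏ g : Fin (R.n k + 1),
      if R.rk i < (g : ℕ) ∧ (g : ℕ) ≤ R.rk j then p.1 ⟨k, g⟩ else 1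
  | Sum.inr _ => 1

theorem mu_eq (p : R.Sp) {i : L} {k : Fin 3} (h : R.pl i = Sum.inl k) (j : L) :
    mu R p i j = ∏ g : Fin (R.n k + 1),
      if R.rk i < (g : ℕ) ∧ (g : ℕ) ≤ R.rk j then p.1 ⟨k, g⟩ else 1 := by
  unfold mu
  rw [h]

theorem mu_core (p : R.Sp) {i : L} {s : Bool} (h : R.pl i = Sum.inr s) (j : L) :
    mu R p i j = 1 := by
  unfold mu
  rw [h]

theorem an_mu (i j : L) : AnalyticAt ℂ (fun q : R.Sp => mu R q i j) p := by
  rcases hi : R.pl i with k | s
  · simp only [mu_eq _ hi]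
    refine Finset.analyticAt_fun_prod _ fun g _ => ?_
    by_cases h : R.rk i < (g : ℕ) ∧ (g : ℕ) ≤ R.rk j
    · simp only [h, and_self, if_true]; exact an_gap _
    · simp only [h, if_false]; exact analyticAt_const
  · simp only [mu_core _ hi]
    exact analyticAt_const

theorem XX_mu (p : R.Sp) {i j : L} {k : Fin 3} (h : R.pl i = Sum.inl k) (hij : R.rk i ≤ R.rk j) :
    R.XX p k (R.rk j) = mu R p i j * R.XX p k (R.rk i) := by
  rw [mu_eq p h]
  simp only [Region.XX, ← Finset.prod_mul_distrib]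
  refine Finset.prod_congr rfl fun g _ => ?_
  by_cases h1 : (g : ℕ) ≤ R.rk i
  · rw [if_pos (h1.trans hij), if_pos h1, if_neg (by omega), one_mul]
  · by_cases h' : (g : ℕ) ≤ R.rk j
    · rw [if_pos h', if_neg h1, if_pos ⟨by omega, h'⟩, mul_one]
    · rw [if_neg h', if_neg h1, if_neg (by omega), mul_one]

theorem YY_mu (p : R.Sp) {i j : L} {k : Fin 3} (h : R.pl i = Sum.inl k) (hij : R.rk i ≤ R.rk j) :
    R.YY p k (R.rk i) = mu R p i j * R.YY p k (R.rk j) := by
  rw [mu_eq p h]
  simp only [Region.YY, ← Finset.prod_mul_distrib]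
  refine Finset.prod_congr rfl fun g _ => ?_
  by_cases h1 : R.rk j < (g : ℕ)
  · rw [if_pos (hij.trans_lt h1), if_pos h1, if_neg (by omega), one_mul]
  · by_cases h' : R.rk i < (g : ℕ)
    · rw [if_pos h', if_neg h1, if_pos ⟨h', by omega⟩, mul_one]
    · rw [if_neg h', if_neg h1, if_neg (by omega), mul_one]

theorem mu_mul (p : R.Sp) {i j l : L} {k : Fin 3} (hi : R.pl i = Sum.inl k)
    (hj : R.pl j = Sum.inl k) (hij : R.rk i ≤ R.rk j) (hjl : R.rk j ≤ R.rk l) :
    mu R p i l = mu R p i j * mu R p j l := by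
  rw [mu_eq p hi, mu_eq p hi, mu_eq p hj, ← Finset.prod_mul_distrib]
  refine Finset.prod_congr rfl fun g _ => ?_
  by_cases h1 : R.rk i < (g : ℕ)
  · by_cases h2 : (g : ℕ) ≤ R.rk j
    · rw [if_pos ⟨h1, h2.trans hjl⟩, if_pos ⟨h1, h2⟩, if_neg (by omega), mul_one]
    · by_cases h3 : (g : ℕ) ≤ R.rk l
      · rw [if_pos ⟨h1, h3⟩, if_neg (by omega), if_pos ⟨by omega, h3⟩, one_mul]
      · rw [if_neg (by omega), if_neg (by omega), if_neg (by omega), one_mul]
  · rw [if_neg (by omega), if_neg (by omega), if_neg (by omega), one_mul]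

theorem mu_ne_one (h : p ∈ R.dom S) {i j : L} {k : Fin 3} (hi : R.pl i = Sum.inl k)
    (hj : R.pl j = Sum.inl k) (ht : i.2 = j.2) (hij : R.rk i < R.rk j) : mu R p i j ≠ 1 := by
  rw [mu_eq p hi]
  exact h.2.2.2.2 i j k hi hj ht hij

/-! ### Marks of the cores and of the necks -/

theorem sht_core_ne (h : p ∈ R.dom S) {j : L} {s : Bool} (hj : R.pl j = Sum.inr s) :
    R.sht S p j ≠ 0 := by
  have hc := h.2.2.1 j s hj
  rw [sht_core p hj]
  refine mul_ne_zero (by split_ifs <;> norm_num) ?_
  by_cases hSj : S j = true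
  · simp only [hSj, if_true] at hc ⊢
    exact gcw_ne fun l => quarter (by positivity) (by linarith [hc l])
  · have hSj' : S j = false := by simpa using hSj
    simp only [hSj', Bool.false_eq_true, if_false] at hc ⊢
    exact gc_ne fun l => quarter (by positivity) (by linarith [hc l])

theorem gk_pos_ne (h : p ∈ R.dom S) {j : L} {k : Fin 3} (hj : R.pl j = Sum.inl k) :
    gk (R.eps p) k (R.pos p j) ≠ 0 := gk_ne fun l hl => neck_cond h hj l hl

theorem sht_neck_zero (h : p ∈ R.dom S) {j : L} {k : Fin 3} (hj : R.pl j = Sum.inl k) :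
    R.sht S p j = 0 ↔ R.XX p k (R.rk j) = R.YY p k (R.rk j) := by
  rw [sht_neck p hj]
  constructor
  · intro e
    have h1 : gk (R.eps p) k (R.pos p j) * (R.XX p k (R.rk j) - R.YY p k (R.rk j)) = 0 := by
      linear_combination 2 * e
    exact sub_eq_zero.1 ((mul_eq_zero.1 h1).resolve_left (gk_pos_ne h hj))
  · intro e
    rw [e, sub_self, mul_zero, zero_div]

theorem neck_S (hS : ∀ j, S j = true → (R.pl j).isRight = true) {j : L} {k : Fin 3}
    (hj : R.pl j = Sum.inl k) : S j = false := by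
  rcases h : S j with _ | _
  · rfl
  · have := hS j h
    rw [hj] at this
    simp at this

/-- Two equal marks of one neck have the same coordinates `X` and `Y`. -/
theorem neck_same (hS : ∀ j, S j = true → (R.pl j).isRight = true) (h : p ∈ R.dom S) {i j : L}
    {k : Fin 3} (hi : R.pl i = Sum.inl k) (hj : R.pl j = Sum.inl k)
    (e : Same (S i) (R.pos p i) (R.sht S p i) (S j) (R.pos p j) (R.sht S p j)) :
    R.XX p k (R.rk i) = R.XX p k (R.rk j) ∧ R.YY p k (R.rk i) = R.YY p k (R.rk j) := by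
  rw [neck_S hS hi, neck_S hS hj, Same, if_pos rfl] at e
  obtain ⟨h1, h2⟩ := e
  have h3 := gk_pos_ne h hj
  rw [sht_neck p hi, sht_neck p hj, h1] at h2
  have h4 : R.XX p k (R.rk i) - R.YY p k (R.rk i) = R.XX p k (R.rk j) - R.YY p k (R.rk j) := by
    apply mul_left_cancel₀ h3
    linear_combination 2 * h2
  rw [pos_neck p hi, pos_neck p hj] at h1
  constructor
  · linear_combination h1 + h4 / 2
  · linear_combination h1 - h4 / 2

/-- Marks of one type at the same point: only at a node of a neck. -/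
theorem same_type (hS : ∀ j, S j = true → (R.pl j).isRight = true) (h : p ∈ R.dom S) {i j : L}
    (hij : i ≠ j) (ht : i.2 = j.2)
    (e : Same (S i) (R.pos p i) (R.sht S p i) (S j) (R.pos p j) (R.sht S p j)) :
    ∃ k, R.pl i = Sum.inl k ∧ R.pl j = Sum.inl k ∧ R.XX p k (R.rk j) = 0 ∧
      R.YY p k (R.rk j) = 0 := by
  by_cases hk : ∃ k, R.pl i = Sum.inl k ∧ R.pl j = Sum.inl k
  · obtain ⟨k, hi, hj⟩ := hk
    obtain ⟨hX, hY⟩ := neck_same hS h hi hj e
    refine ⟨k, hi, hj, ?_⟩
    rcases lt_trichotomy (R.rk i) (R.rk j) with hr | hr | hr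
    · have h1 := mu_ne_one h hi hj ht hr
      have h2 := XX_mu p hi hr.le
      have h3 := YY_mu p hi hr.le
      rw [hX] at h2
      rw [hY] at h3
      have h1' : 1 - mu R p i j ≠ 0 := sub_ne_zero.2 (Ne.symm h1)
      constructor
      · exact (mul_eq_zero.1 (show (1 - mu R p i j) * R.XX p k (R.rk j) = 0 by
          linear_combination h2)).resolve_left h1'
      · exact (mul_eq_zero.1 (show (1 - mu R p i j) * R.YY p k (R.rk j) = 0 by
          linear_combination h3)).resolve_left h1'
    · exact absurd (R.rk_inj i j k hi hj hr) hij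
    · have h1 := mu_ne_one h hj hi ht.symm hr
      have h2 := XX_mu p hj hr.le
      have h3 := YY_mu p hj hr.le
      rw [hX] at h2
      rw [hY] at h3
      have h1' : 1 - mu R p j i ≠ 0 := sub_ne_zero.2 (Ne.symm h1)
      constructor
      · exact (mul_eq_zero.1 (show (1 - mu R p j i) * R.XX p k (R.rk j) = 0 by
          linear_combination h2)).resolve_left h1'
      · exact (mul_eq_zero.1 (show (1 - mu R p j i) * R.YY p k (R.rk j) = 0 by
          linear_combination h3)).resolve_left h1'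
  · exact absurd e (h.2.2.2.1 i j hij ht fun k hk' => hk ⟨k, hk'⟩)

theorem same_zero {s s' : Bool} {z v z' v' : ℂ} (e : Same s z v s' z' v') (hv : v' = 0) :
    v = 0 := by
  unfold Same at e
  by_cases hs : s = s'
  · rw [if_pos hs] at e
    rw [e.2, hv]
  · rw [if_neg hs] at e
    have h1 : z' ≠ 0 := right_ne_zero_of_mul_eq_one e.1
    rw [hv] at e
    exact (mul_eq_zero.1 e.2.symm).resolve_right (pow_ne_zero 3 h1)

/-- A mark that is at a node of the neck `k` belongs to this neck. -/
theorem same_node (hS : ∀ j, S j = true → (R.pl j).isRight = true) (h : p ∈ R.dom S) {i j : L}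
    {k : Fin 3} (hj : R.pl j = Sum.inl k) (hX : R.XX p k (R.rk j) = 0)
    (hY : R.YY p k (R.rk j) = 0)
    (e : Same (S i) (R.pos p i) (R.sht S p i) (S j) (R.pos p j) (R.sht S p j)) :
    R.pl i = Sum.inl k ∧ R.XX p k (R.rk i) = 0 ∧ R.YY p k (R.rk i) = 0 := by
  have h0 : R.sht S p j = 0 := (sht_neck_zero h hj).2 (by rw [hX, hY])
  have h1 := same_zero e h0
  rcases hi : R.pl i with l | s
  · have hlk : l = k := by
      by_contra hlk
      rw [neck_S hS hi, neck_S hS hj, Same, if_pos rfl] at e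
      have h2 := neck_near h hi
      have h3 := neck_near h hj
      rw [e.1] at h2
      have h4 := ctr_sub k l hlk
      have h5 : ctr k - ctr l = (R.pos p j - ctr l) - (R.pos p j - ctr k) := by ring
      rw [h5] at h4
      have h6 := norm_sub_le (R.pos p j - ctr l) (R.pos p j - ctr k)
      linarith
    subst hlk
    obtain ⟨h2, h3⟩ := neck_same hS h hi hj e
    exact ⟨rfl, h2.trans hX, h3.trans hY⟩
  · exact absurd h1 (sht_core_ne h hi)

end Vale.Agent.P273.H724

end
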