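import Vale.Agent.P273.H724.RegPos

/-! The positions of the marks over the domain of a region at the theta point. -/

noncomputable section

namespace Vale.Agent.P273.H724

open Set Filter H95
open scoped Topology

variable {R : Region} {S : L → Bool} {p : R.Sp}

theorem dom_eps (h : p ∈ R.dom S) (k : Fin 3) : ‖R.eps p k‖ < 1 / 4096 := h.1 k

theorem dom_XY (h : p ∈ R.dom S) {j : L} {k : Fin 3} (hj : R.pl j = Sum.inl k) :
    ‖R.XX p k (R.rk j)‖ < 1 / 8 ∧ ‖R.YY p k (R.rk j)‖ < 1 / 8 := h.2.1 j k hj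

theorem XX_mul_YY (p : R.Sp) (k : Fin 3) (i : ℕ) : R.XX p k i * R.YY p k i = R.eps p k := by
  rw [Region.XX, Region.YY, Region.eps, ← Finset.prod_mul_distrib]
  refine Finset.prod_congr rfl fun g _ => ?_
  by_cases h : (g : ℕ) ≤ i
  · simp [h, not_lt.2 h]
  · simp [h, not_le.1 h]

theorem pos_neck (p : R.Sp) {j : L} {k : Fin 3} (hj : R.pl j = Sum.inl k) :
    R.pos p j = ctr k + (R.XX p k (R.rk j) + R.YY p k (R.rk j)) / 2 := by
  unfold Region.pos
  split
  · rename_i k' h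
    have : k' = k := Sum.inl_injective (h.symm.trans hj)
    subst this; rfl
  · rename_i s h
    rw [h] at hj; cases hj

theorem pos_core (p : R.Sp) {j : L} {s : Bool} (hj : R.pl j = Sum.inr s) :
    R.pos p j = p.2 ⟨j, by simp [hj]⟩ := by
  unfold Region.pos
  split
  · rename_i k' h
    rw [h] at hj; cases hj
  · rfl

theorem sht_neck (p : R.Sp) {j : L} {k : Fin 3} (hj : R.pl j = Sum.inl k) :
    R.sht S p j = gk (R.eps p) k (R.pos p j) * (R.XX p k (R.rk j) - R.YY p k (R.rk j)) / 2 := by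
  unfold Region.sht
  split
  · rename_i k' h
    have : k' = k := Sum.inl_injective (h.symm.trans hj)
    subst this; rfl
  · rename_i s h
    rw [h] at hj; cases hj

theorem sht_core (p : R.Sp) {j : L} {s : Bool} (hj : R.pl j = Sum.inr s) :
    R.sht S p j = (if s then -1 else 1) *
      (if S j then gcw (R.eps p) (R.pos p j) else gc (R.eps p) (R.pos p j)) := by
  unfold Region.sht
  split
  · rename_i k' h
    rw [h] at hj; cases hj
  · rename_i s' h
    have : s' = s := Sum.inr_injective (h.symm.trans hj)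
    subst this; rfl

/-! ### Distances -/

theorem ctr_sub (k l : Fin 3) (h : l ≠ k) : 2 ≤ ‖ctr k - ctr l‖ := by
  have e : ctr k - ctr l = ((2 * (((k : ℕ) : ℤ) - ((l : ℕ) : ℤ)) : ℤ) : ℂ) := by
    simp only [ctr]; push_cast; ring
  rw [e, Complex.norm_intCast]
  have h1 : ((k : ℕ) : ℤ) - ((l : ℕ) : ℤ) ≠ 0 := by
    intro h2
    apply h
    have : ((k : ℕ) : ℤ) = ((l : ℕ) : ℤ) := by linarith
    exact (Fin.ext (by exact_mod_cast this)).symm
  have h2 : (1 : ℤ) ≤ |((k : ℕ) : ℤ) - ((l : ℕ) : ℤ)| := Int.one_le_abs h1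
  have h3 : (2 : ℤ) ≤ |2 * (((k : ℕ) : ℤ) - ((l : ℕ) : ℤ))| := by
    rw [abs_mul]; norm_num; linarith
  have h4 : ((2 : ℤ) : ℝ) ≤ ((|2 * (((k : ℕ) : ℤ) - ((l : ℕ) : ℤ))| : ℤ) : ℝ) := by
    exact_mod_cast h3
  rw [Int.cast_abs] at h4
  simpa using h4

theorem neck_near (h : p ∈ R.dom S) {j : L} {k : Fin 3} (hj : R.pl j = Sum.inl k) :
    ‖R.pos p j - ctr k‖ < 1 / 8 := by
  obtain ⟨h1, h2⟩ := dom_XY h hj
  rw [pos_neck p hj]
  have : ctr k + (R.XX p k (R.rk j) + R.YY p k (R.rk j)) / 2 - ctr k =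
      (R.XX p k (R.rk j) + R.YY p k (R.rk j)) / 2 := by ring
  rw [this, norm_div]
  have h3 := norm_add_le (R.XX p k (R.rk j)) (R.YY p k (R.rk j))
  have h4 : ‖(2 : ℂ)‖ = 2 := by simp
  rw [h4, div_lt_iff₀ (by norm_num)]
  linarith

theorem neck_far {k l : Fin 3} (hl : l ≠ k) {x : ℂ} (hx : ‖x - ctr k‖ < 1 / 8) :
    1 < ‖x - ctr l‖ := by
  have h1 := ctr_sub k l hl
  have h2 : ‖ctr k - ctr l‖ ≤ ‖ctr k - x‖ + ‖x - ctr l‖ := by
    have : ctr k - ctr l = (ctr k - x) + (x - ctr l) := by ring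
    rw [this]; exact norm_add_le _ _
  rw [norm_sub_rev (ctr k) x] at h2
  linarith

theorem far_frac {e z : ℂ} (he : ‖e‖ < 1 / 4096) (hz : 1 < ‖z‖) : ‖e‖ < 1 * ‖z‖ ^ 2 := by
  nlinarith

/-- `g_k ^ 2`. -/
theorem gk_sq {ε : Fin 3 → ℂ} {k : Fin 3} {x : ℂ} (h : ∀ l, l ≠ k → x - ctr l ≠ 0) :
    gk ε k x ^ 2 = ∏ l : Fin 3, if l = k then 1 else ((x - ctr l) ^ 2 - ε l) := by
  rw [gk, ← Finset.prod_pow]
  refine Finset.prod_congr rfl fun l _ => ?_
  by_cases hl : l = k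
  · simp [hl]
  · simp only [hl, if_false]
    exact factor_sq (h l hl)

theorem gc_sq {ε : Fin 3 → ℂ} {x : ℂ} (h : ∀ l, x - ctr l ≠ 0) :
    gc ε x ^ 2 = ∏ l : Fin 3, ((x - ctr l) ^ 2 - ε l) := by
  rw [gc, ← Finset.prod_pow]
  exact Finset.prod_congr rfl fun l _ => factor_sq (h l)

theorem gcw_sq {ε : Fin 3 → ℂ} {w : ℂ} (h : ∀ l, 1 - ctr l * w ≠ 0) :
    gcw ε w ^ 2 = ∏ l : Fin 3, ((1 - ctr l * w) ^ 2 - ε l * w ^ 2) := by
  rw [gcw, ← Finset.prod_pow]
  exact Finset.prod_congr rfl fun l _ => factor_sq (h l)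

theorem prod_neck {ε : Fin 3 → ℂ} {k : Fin 3} {x : ℂ} (h : ∀ l, l ≠ k → x - ctr l ≠ 0) :
    ∏ l : Fin 3, ((x - ctr l) ^ 2 - ε l) = ((x - ctr k) ^ 2 - ε k) * gk ε k x ^ 2 := by
  rw [gk_sq h, ← Finset.mul_prod_erase Finset.univ _ (Finset.mem_univ k)]
  congr 1
  rw [← Finset.mul_prod_erase Finset.univ (fun l => if l = k then (1 : ℂ) else
    ((x - ctr l) ^ 2 - ε l)) (Finset.mem_univ k)]
  simp only [if_true, one_mul]
  refine Finset.prod_congr rfl fun l hl => ?_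
  rw [if_neg (Finset.mem_erase.1 hl).1]

theorem neck_sub_ne (h : p ∈ R.dom S) {j : L} {k : Fin 3} (hj : R.pl j = Sum.inl k) (l : Fin 3)
    (hl : l ≠ k) : R.pos p j - ctr l ≠ 0 := by
  have h1 := neck_far hl (neck_near h hj)
  intro h2
  rw [h2, norm_zero] at h1
  linarith

theorem core_frac (h : p ∈ R.dom S) {j : L} {s : Bool} (hj : R.pl j = Sum.inr s)
    (hS : S j = false) (l : Fin 3) : ‖R.eps p l‖ < 1 / 4 * ‖R.pos p j - ctr l‖ ^ 2 := by
  have := h.2.2.1 j s hj l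
  rw [hS] at this
  simp only [Bool.false_eq_true, if_false] at this
  linarith

theorem core_fracw (h : p ∈ R.dom S) {j : L} {s : Bool} (hj : R.pl j = Sum.inr s)
    (hS : S j = true) (l : Fin 3) :
    ‖R.eps p l * R.pos p j ^ 2‖ < 1 / 4 * ‖1 - ctr l * R.pos p j‖ ^ 2 := by
  have := h.2.2.1 j s hj l
  rw [hS] at this
  simp only [if_true] at this
  linarith

/-- **The marks are on the curve.** -/
theorem P_sq (hS : ∀ j, S j = true → (R.pl j).isRight = true) (h : p ∈ R.dom S) (j : L) :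
    R.sht S p j ^ 2 = pol (S j) (thA (R.eps p)) (R.pos p j) := by
  rcases hj : R.pl j with k | s
  · have hSj : S j = false := by
      by_contra hc
      have h1 := hS j (by simpa using hc)
      rw [hj] at h1
      simp at h1
    rw [sht_neck p hj, hSj, pol, if_neg (by simp), sx_thA, prod_neck (neck_sub_ne h hj)]
    have e1 : R.pos p j - ctr k = (R.XX p k (R.rk j) + R.YY p k (R.rk j)) / 2 := by
      rw [pos_neck p hj]; ring
    rw [e1, ← XX_mul_YY p k (R.rk j)]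
    ring
  · have hsg : ((if s then (-1 : ℂ) else 1)) ^ 2 = 1 := by cases s <;> simp
    rw [sht_core p hj, mul_pow, hsg, one_mul]
    by_cases hSj : S j = true
    · rw [if_pos hSj, pol, if_pos hSj, sw_thA, gcw_sq fun l => ne_of_frac (core_fracw h hj hSj l)]
    · have hSj' : S j = false := by simpa using hSj
      rw [if_neg hSj, pol, if_neg hSj, sx_thA, gc_sq fun l => ne_of_frac (core_frac h hj hSj' l)]

/-- The coefficients are in `K6`. -/
theorem K6_of_factor {a : Fin 6 → ℂ} (h : ∀ c, H183.sx a c = 0 → ∃ (d : ℂ) (B : ℂ → ℂ),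
    Continuous B ∧ B c ≠ 0 ∧ ∀ x, H183.sx a x = (x - c) * (x - d) * B x) : a ∈ H183.K6 := by
  intro c h0 h1 h2
  obtain ⟨d, B, hB, hBc, hf⟩ := h c h0
  have hhc : Continuous (H183.hx a c) := by
    unfold H183.hx; fun_prop
  have e1 : ∀ x, x ≠ c → H183.hx a c x * (x - c) = (x - d) * B x := by
    intro x hx
    have h3 := H183.sx_eq a c x
    rw [h0, h1, hf x] at h3
    have h4 : x - c ≠ 0 := sub_ne_zero.2 hx
    apply mul_right_cancel₀ h4
    linear_combination -h3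
  have e2 : ∀ x, H183.hx a c x * (x - c) = (x - d) * B x := fun x =>
    congrFun (Continuous.ext_on (dense_compl_singleton c)
      (hhc.mul (continuous_id.sub continuous_const))
      ((continuous_id.sub continuous_const).mul hB) fun y hy => e1 y hy) x
  have e3 : c = d := by
    have := e2 c
    rw [sub_self, mul_zero] at this
    exact sub_eq_zero.1 ((mul_eq_zero.1 this.symm).resolve_right hBc)
  have e4 : ∀ x, x ≠ c → H183.hx a c x = B x := by
    intro x hx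
    have h4 : x - c ≠ 0 := sub_ne_zero.2 hx
    apply mul_right_cancel₀ h4
    rw [e2 x, ← e3]; ring
  have e5 : H183.hx a c c = B c :=
    congrFun (Continuous.ext_on (dense_compl_singleton c) hhc hB fun y hy => e4 y hy) c
  exact hBc (by rw [← e5, h2])

theorem thA_mem_K6 {ε : Fin 3 → ℂ} (hε : ∀ k, ‖ε k‖ < 1 / 4096) : thA ε ∈ H183.K6 := by
  refine K6_of_factor fun c hc => ?_
  rw [← sx_eq, sx_thA] at hc
  obtain ⟨k, -, hk⟩ := Finset.prod_eq_zero_iff.1 hc
  refine ⟨2 * ctr k - c, fun x => ∏ l ∈ Finset.univ.erase k, ((x - ctr l) ^ 2 - ε l), by fun_prop,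
    ?_, fun x => ?_⟩
  · have h1 : ‖c - ctr k‖ < 1 / 8 := by
      have h2 : ‖c - ctr k‖ ^ 2 < (1 / 8) ^ 2 := by
        rw [← norm_pow, sub_eq_zero.1 hk]
        have := hε k
        linarith
      exact lt_of_pow_lt_pow_left₀ 2 (by norm_num) h2
    refine Finset.prod_ne_zero_iff.2 fun l hl => ?_
    have h2 := neck_far (Finset.mem_erase.1 hl).1 h1
    intro h3
    have h4 : ‖c - ctr l‖ ^ 2 = ‖ε l‖ := by rw [← norm_pow, sub_eq_zero.1 h3]
    have h5 := hε l
    nlinarith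
  · rw [← sx_eq, sx_thA, ← Finset.mul_prod_erase Finset.univ _ (Finset.mem_univ k)]
    congr 1
    have h3 : ε k = (c - ctr k) ^ 2 := (sub_eq_zero.1 hk).symm
    rw [h3]; ring

theorem P_K6 (h : p ∈ R.dom S) : thA (R.eps p) ∈ H95.K6 := by
  rw [K6_eq]; exact thA_mem_K6 (dom_eps h)

end Vale.Agent.P273.H724
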