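import Vale.Agent.P273.H724.Dict

/-! Positions of the marks over the regions at the theta point: equations and analyticity. -/

noncomputable section

namespace Vale.Agent.P273.H724

open Set Filter H95
open scoped Topology

/-! ### Sextics from polynomials -/

section poly
open Polynomial

theorem sx_monic {Q : ℂ[X]} (hm : Q.Monic) (hd : Q.natDegree = 6) (x : ℂ) :
    H95.sx (fun i => Q.coeff i) x = Q.eval x := by
  rw [eval_eq_sum_range, hd, Finset.sum_range_succ, H95.sx]
  have h6 : Q.coeff 6 = 1 := by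
    have := hm.coeff_natDegree
    rwa [hd] at this
  rw [h6, one_mul, add_comm, Fin.sum_univ_eq_sum_range (fun i => Q.coeff i * x ^ i) 6]

theorem sw_monic {Q : ℂ[X]} (hm : Q.Monic) (hd : Q.natDegree = 6) {w : ℂ} (hw : w ≠ 0) :
    H95.sw (fun i => Q.coeff i) w = w ^ 6 * Q.eval w⁻¹ := by
  rw [← sx_monic hm hd, H95.sw, H95.sx, mul_add, Finset.mul_sum]
  congr 1
  · rw [inv_pow, mul_inv_cancel₀ (pow_ne_zero 6 hw)]
  · refine Finset.sum_congr rfl fun i _ => ?_
    have hi : (i : ℕ) ≤ 6 := i.2.le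
    have h1 : w ^ 6 = w ^ (6 - (i : ℕ)) * w ^ (i : ℕ) := by rw [← pow_add, Nat.sub_add_cancel hi]
    rw [h1, inv_pow]
    have h2 : w ^ (i : ℕ) ≠ 0 := pow_ne_zero _ hw
    field_simp

theorem sw_at_zero (a : Fin 6 → ℂ) : H95.sw a 0 = 1 := by
  rw [H95.sw, Finset.sum_eq_zero, add_zero]
  intro i _
  rw [zero_pow (by omega), mul_zero]

/-- The theta polynomial. -/
def thQ (ε : Fin 3 → ℂ) : ℂ[X] := ∏ k, ((X - C (ctr k)) ^ 2 - C (ε k))

theorem thQ_monic (ε : Fin 3 → ℂ) : (thQ ε).Monic := by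
  refine monic_prod_of_monic _ _ fun k _ => ?_
  refine Monic.sub_of_left ((monic_X_sub_C _).pow 2) ?_
  rw [degree_pow, degree_X_sub_C]
  exact lt_of_le_of_lt degree_C_le (by norm_num)

theorem quad_natDegree (c e : ℂ) : ((X - C c) ^ 2 - C e : ℂ[X]).natDegree = 2 := by
  rw [natDegree_sub_C, natDegree_pow, natDegree_X_sub_C]

theorem thQ_natDegree (ε : Fin 3 → ℂ) : (thQ ε).natDegree = 6 := by
  rw [thQ, natDegree_prod_of_monic]
  · simp only [quad_natDegree]; simp
  · intro k _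
    refine Monic.sub_of_left ((monic_X_sub_C _).pow 2) ?_
    rw [degree_pow, degree_X_sub_C]
    exact lt_of_le_of_lt degree_C_le (by norm_num)

theorem sx_thA (ε : Fin 3 → ℂ) (x : ℂ) :
    H95.sx (thA ε) x = ∏ k, ((x - ctr k) ^ 2 - ε k) := by
  have h := sx_monic (thQ_monic ε) (thQ_natDegree ε) x
  have e : (fun i : Fin 6 => (thQ ε).coeff i) = thA ε := rfl
  rw [e] at h
  rw [h, thQ, eval_prod]
  simp

theorem sw_thA (ε : Fin 3 → ℂ) (w : ℂ) :
    H95.sw (thA ε) w = ∏ k, ((1 - ctr k * w) ^ 2 - ε k * w ^ 2) := by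
  by_cases hw : w = 0
  · subst hw
    rw [sw_at_zero]; simp
  · have h := sw_monic (thQ_monic ε) (thQ_natDegree ε) hw
    have e : (fun i : Fin 6 => (thQ ε).coeff i) = thA ε := rfl
    rw [e] at h
    rw [h, thQ, eval_prod]
    have h6 : w ^ 6 = ∏ _k : Fin 3, w ^ 2 := by
      rw [Finset.prod_const]; simp; ring
    rw [h6, ← Finset.prod_mul_distrib]
    refine Finset.prod_congr rfl fun k _ => ?_
    simp only [eval_sub, eval_pow, eval_X, eval_C]
    field_simp

/-- All coefficients are analytic. -/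
def CoefAn {A : Type*} [NormedAddCommGroup A] [NormedSpace ℂ A] (F : A → ℂ[X]) (p : A) : Prop :=
  ∀ n, AnalyticAt ℂ (fun q => (F q).coeff n) p

variable {A : Type*} [NormedAddCommGroup A] [NormedSpace ℂ A] {F G : A → ℂ[X]} {p : A}

theorem CoefAn.mul (hF : CoefAn F p) (hG : CoefAn G p) : CoefAn (fun q => F q * G q) p := by
  intro n
  simp only [coeff_mul]
  exact Finset.analyticAt_fun_sum _ fun i _ => (hF i.1).mul (hG i.2)

theorem CoefAn.sub (hF : CoefAn F p) (hG : CoefAn G p) : CoefAn (fun q => F q - G q) p := by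
  intro n
  simp only [coeff_sub]
  exact (hF n).sub (hG n)

theorem CoefAn.const (Q : ℂ[X]) : CoefAn (fun _ : A => Q) p := fun _ => analyticAt_const

theorem CoefAn.C {f : A → ℂ} (hf : AnalyticAt ℂ f p) : CoefAn (fun q => Polynomial.C (f q)) p := by
  intro n
  simp only [coeff_C]
  by_cases h : n = 0
  · simp only [h, if_true]; exact hf
  · simp only [h, if_false]; exact analyticAt_const

theorem CoefAn.pow (hF : CoefAn F p) (k : ℕ) : CoefAn (fun q => F q ^ k) p := by
  induction k with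
  | zero => simp only [pow_zero]; exact CoefAn.const _
  | succ k ih => simp only [pow_succ]; exact ih.mul hF

theorem CoefAn.prod {ι : Type*} (s : Finset ι) {F : ι → A → ℂ[X]} (h : ∀ i ∈ s, CoefAn (F i) p) :
    CoefAn (fun q => ∏ i ∈ s, F i q) p := by
  classical
  induction s using Finset.induction_on with
  | empty => simp only [Finset.prod_empty]; exact CoefAn.const _
  | insert i s hi ih =>
    simp only [Finset.prod_insert hi]
    exact (h i (by simp)).mul (ih fun j hj => h j (by simp [hj]))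

theorem analyticAt_thA {ε : A → Fin 3 → ℂ} (h : ∀ k, AnalyticAt ℂ (fun q => ε q k) p) (i : Fin 6) :
    AnalyticAt ℂ (fun q => thA (ε q) i) p := by
  have : CoefAn (fun q => ∏ k, ((X - Polynomial.C (ctr k)) ^ 2 - Polynomial.C (ε q k))) p :=
    CoefAn.prod _ fun k _ => (CoefAn.const _).sub (CoefAn.C (h k))
  exact this i

end poly

/-! ### Square roots -/

theorem csq_sq (z : ℂ) : csq z ^ 2 = z := by
  have := Complex.cpow_nat_inv_pow z (n := 2) two_ne_zero
  simpa only [csq, one_div, Nat.cast_ofNat] using this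

theorem csq_ne {z : ℂ} (h : z ≠ 0) : csq z ≠ 0 := by
  intro e
  apply h
  rw [← csq_sq z, e]; ring

theorem mem_slit {z : ℂ} (h : ‖z‖ < 1) : 1 - z ∈ Complex.slitPlane := by
  rw [Complex.mem_slitPlane_iff]
  left
  have := (Complex.re_le_norm z).trans_lt h
  simp only [Complex.sub_re, Complex.one_re]
  linarith

theorem one_sub_ne {z : ℂ} (h : ‖z‖ < 1) : 1 - z ≠ 0 :=
  Complex.slitPlane_ne_zero (mem_slit h)

theorem analyticAt_csq {A : Type*} [NormedAddCommGroup A] [NormedSpace ℂ A] {f : A → ℂ} {p : A}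
    (hf : AnalyticAt ℂ f p) (h : f p ∈ Complex.slitPlane) : AnalyticAt ℂ (fun q => csq (f q)) p :=
  hf.cpow analyticAt_const h

theorem frac_lt {e z : ℂ} {c : ℝ} (hc : c ≤ 1) (h : ‖e‖ < c * ‖z‖ ^ 2) : ‖e / z ^ 2‖ < 1 := by
  have hz : 0 < ‖z‖ ^ 2 := by
    by_contra hcon
    have : ‖z‖ ^ 2 = 0 := le_antisymm (not_lt.1 hcon) (by positivity)
    rw [this, mul_zero] at h
    exact absurd h (not_lt.2 (norm_nonneg _))
  rw [norm_div, norm_pow, div_lt_one hz]
  nlinarith

theorem ne_of_frac {e z : ℂ} {c : ℝ} (h : ‖e‖ < c * ‖z‖ ^ 2) : z ≠ 0 := by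
  rintro rfl
  simp at h
  exact absurd h (not_lt.2 (norm_nonneg _))

/-- One factor squared. -/
theorem factor_sq {e z : ℂ} (hz : z ≠ 0) : (z * csq (1 - e / z ^ 2)) ^ 2 = z ^ 2 - e := by
  rw [mul_pow, csq_sq, mul_sub, mul_one, mul_div_cancel₀ _ (pow_ne_zero 2 hz)]

end Vale.Agent.P273.H724
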