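import Vale.Agent.P273.H724.ActN

/-! P273, (T2): the fields `b1`, `b5`, `b6` of the gauge from those of the one mark form. -/

noncomputable section

namespace Vale.Agent.P273.H724

open Set Filter H681 H95 H732 H562 H973 H578 H803 H778
open scoped Topology ContDiff

/-- The leg of the gauge. -/
abbrev lgT (O : One) : LegF := fun R m S j ξ p =>
  (th O j ξ S (posE R m p) (shE R m S p)).comp (fderiv ℝ (posE R m) p)

section one

variable {O : One} {R : H95.Region} {m : ∀ k, Fin (R.n k + 1)} {S : L → Bool} {p : Co R m}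
  {ξ : Fin 6 → ℝ} {v : Co R m} {t : Bool}

theorem lgT_eq (hB : Brd S (posE R m) (shE R m S) p) (hξ : IsCl ξ) (k : Fin 7) :
    lgT O R m S (k, t) ξ p v = lgP O R m S (k, t) ξ p v +
      fderiv ℝ (gM O ξ R m S t p k) p v := by
  have h := hB.leg_eq (t := t) O hξ k
  have h1 := congrArg (fun f : Co R m →L[ℝ] ℝ => f v) h
  exact h1

/-- The bound of a leg in one direction. -/
theorem lgT_bound (hB : Brd S (posE R m) (shE R m S) p) (hξ : IsCl ξ) (hy : ∀ k, 0 ≤ p.2.2.1 k)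
    (hact : ∀ k, (∀ᶠ q in 𝓝 p, gM O ξ R m S t p k q = 0) ∨ Act' R m S p t k)
    {A B ρ : ℝ} (hA : 0 ≤ A) (hB0 : 0 ≤ B) (hρ : 0 ≤ ρ)
    (hdel : ∀ k l, Act R m S p t k → fin S t (posE R m p) l → NrM R m S p t k l →
      |del (etx O ξ) (bM R m p) (PMt R m S t k p) (PMt R m S t l p)| ≤ A)
    (hleg : ∀ k, |lgP O R m S (k, t) ξ p v| ≤ B)
    (hlog : ∀ k l, Act R m S p t k → Act R m S p t l → NrM R m S p t k l →
      ∃ ζ, LogN (bM R m) (PMt R m S t k) p v ζ ρ ∧ LogN (bM R m) (PMt R m S t l) p v ζ ρ)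
    (k : Fin 7) :
    |lgT O R m S (k, t) ξ p v| ≤
      B + 7 ^ 2 * (2 * (Kn 7 * ρ) * 7 ^ 2 * A + (2 * B + Kn 7 * ρ * A)) := by
  have h1 := hB.gX_bound (t := t) O hξ (v := v) (A := A) (B := 2 * B) (ρ := ρ) hA (by positivity) hρ
    (fun k => by
      rcases hact k with h0 | ha
      · exact Or.inl h0
      · right
        intro l _ hk hl hN
        have hal : Act R m S p t l := act_near hy ha hl hN
        have hak : Act R m S p t k := ⟨ha.fin, fun i => by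
          have := ha.off i
          have h5 : 0 < 1 / 16 * Real.exp (-(p.2.2.1 (H738.kp i)) / 2) := by positivity
          linarith, ha.zone.trans (by norm_num)⟩
        refine ⟨?_, ?_, hlog k l hak hal hN⟩
        · exact hdel k l hak hl hN
        · have e1 := hB.pb_eq O hξ hk
          have e2 := hB.pb_eq O hξ hl
          rw [e1, e2]
          have h3 := hleg k
          have h4 := hleg l
          refine (norm_sub_le _ _).trans ?_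
          rw [Real.norm_eq_abs, Real.norm_eq_abs]
          have h3' : |(((O.η ξ (S (k, t)) (prj (k, t) (posE R m p)) (shE R m S p (k, t))).comp
            (prj (k, t))).comp (fderiv ℝ (posE R m) p)) v| ≤ B := h3
          have h4' : |(((O.η ξ (S (l, t)) (prj (l, t) (posE R m p)) (shE R m S p (l, t))).comp
            (prj (l, t))).comp (fderiv ℝ (posE R m) p)) v| ≤ B := h4
          linarith) k
  rw [lgT_eq hB hξ]
  refine (abs_add_le _ _).trans ?_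
  have h2 := hleg k
  have h3 := h1.2
  exact add_le_add h2 h3

end one

theorem LogN_mono {ι E : Type*} [Fintype ι] [NormedAddCommGroup E] [NormedSpace ℝ E]
    {b : E → ι → ℂ} {p : E → ℂ × ℂ} {e v : E} {ζ : ℂ} {ρ ρ' : ℝ} (h : LogN b p e v ζ ρ)
    (hρ : ρ ≤ ρ') : LogN b p e v ζ ρ' := fun i => by
  refine (h i).trans ?_
  have h1 : 0 ≤ H562.qs fun i => (p e).1 - b e i := H562.qs_nonneg _
  gcongr

theorem w_nonneg (ξ : Fin 6 → ℝ) {y : Fin 3 → ℝ} (hy : ∀ k, 0 ≤ y k) : 0 ≤ ww ξ y :=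
  Finset.sum_nonneg fun k _ => div_nonneg (abs_nonneg _) (hy k)

theorem act_of {R : H95.Region} {m : ∀ k, Fin (R.n k + 1)} {S : L → Bool} {p : Co R m} {t : Bool}
    {O : One} {ξ : Fin 6 → ℝ} (hξ : IsCl ξ) (h : ∀ t k, (∀ ξ, IsCl ξ → ∀ᶠ q in 𝓝 p,
      gM O ξ R m S t p k q = 0) ∨ Act' R m S p t k) (k : Fin 7) :
    (∀ᶠ q in 𝓝 p, gM O ξ R m S t p k q = 0) ∨ Act' R m S p t k :=
  (h t k).imp (fun h => h ξ hξ) id

theorem adm_mono {R : H95.Region} {m : ∀ k, Fin (R.n k + 1)} {S : L → Bool} {p : Co R m}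
    {N N' : ℝ} (h : Adm R m S N p) (hN : N' ≤ N) : Adm R m S N' p :=
  ⟨h.1, fun k => hN.trans (h.2.1 k), h.2.2.1, h.2.2.2.1, h.2.2.2.2⟩

/-- The constant of the recursion. -/
def cR (a b c : ℝ) : ℝ := b + 7 ^ 2 * (2 * (Kn 7 * c) * 7 ^ 2 * a + (2 * b + Kn 7 * c * a))

/-- **b1** -/
theorem t2_b1 {κ : Fin 3 → Fin 3 → ℝ} {O : One} (hA : AsyL κ (lgP O)) (h0 : InA0) (h4 : InA4 O)
    (hB1 : InB1) (hC : InC1 O) :
    ∃ K N₀ : ℝ, 1 ≤ N₀ ∧ ∀ R m S, FarOk R S → ∀ p, Adm R m S N₀ p → ∀ j ξ, IsCl ξ →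
      ∀ d : (W R m).Dir R.Cm, (∀ k, d ≠ .y k) → |lgT O R m S j ξ p ((W R m).vec d)| ≤ K * ‖ξ‖ := by
  obtain ⟨K₁, N₁, hN₁, a1⟩ := hA.b1
  obtain ⟨N₂, hN₂, a2⟩ := h0
  obtain ⟨N₃, hN₃, a3⟩ := h4
  obtain ⟨K₄, N₄, hN₄, a4⟩ := hB1
  obtain ⟨K₅, N₅, hN₅, a5⟩ := hC
  refine ⟨cR (max K₅ 0) (max K₁ 0) (max K₄ 0), max N₁ (max N₂ (max N₃ (max N₄ N₅))),
    hN₁.trans (le_max_left _ _), ?_⟩
  intro R m S hS p hp j ξ hξ d hd
  have p1 : Adm R m S N₁ p := adm_mono hp (le_max_left _ _)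
  have p2 : Adm R m S N₂ p := adm_mono hp (by simp)
  have p3 : Adm R m S N₃ p := adm_mono hp (by simp)
  have p4 : Adm R m S N₄ p := adm_mono hp (by simp)
  have p5 : Adm R m S N₅ p := adm_mono hp (by simp)
  have hy : ∀ k, 0 ≤ p.2.2.1 k := fun k => by linarith [p1.2.1 k]
  obtain ⟨k, t⟩ := j
  have hξ0 := norm_nonneg ξ
  have key := lgT_bound (O := O) (t := t) (v := (W R m).vec d) (a2 R m S hS p p2) hξ hy
    (act_of hξ (a3 R m S hS p p3)) (A := max K₅ 0 * ‖ξ‖) (B := max K₁ 0 * ‖ξ‖) (ρ := max K₄ 0)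
    (by positivity) (by positivity) (by positivity)
    (fun k l hk hl hN => (a5 R m S hS p p5 t k l hk hl hN ξ hξ).1.trans
      (mul_le_mul_of_nonneg_right (le_max_left _ _) hξ0))
    (fun k => (a1 R m S hS p p1 (k, t) ξ hξ d hd).trans
      (mul_le_mul_of_nonneg_right (le_max_left _ _) hξ0))
    (fun k l hk hl _ => ⟨0, LogN_mono (a4 R m S hS p p4 t k hk d hd) (le_max_left _ _),
      LogN_mono (a4 R m S hS p p4 t l hl d hd) (le_max_left _ _)⟩) k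
  refine key.trans (le_of_eq ?_)
  unfold cR
  ring

/-- **b5** -/
theorem t2_b5 {κ : Fin 3 → Fin 3 → ℝ} {O : One} (hA : AsyL κ (lgP O)) (h0 : InA0) (h4 : InA4 O)
    (hB4 : InB4) (hC : InC1 O) :
    ∃ K N₀ : ℝ, 1 ≤ N₀ ∧ ∀ R m S, FarOk R S → ∀ p, Adm R m S N₀ p → ∀ j ξ, IsCl ξ →
      ∀ k, |lgT O R m S j ξ p ((W R m).eul p k)| ≤ K * (‖ξ‖ / p.2.2.1 k) := by
  obtain ⟨K₁, N₁, hN₁, a1⟩ := hA.b5
  obtain ⟨N₂, hN₂, a2⟩ := h0
  obtain ⟨N₃, hN₃, a3⟩ := h4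
  obtain ⟨K₄, N₄, hN₄, a4⟩ := hB4
  obtain ⟨K₅, N₅, hN₅, a5⟩ := hC
  refine ⟨cR (max K₅ 0) (max K₁ 0) (max K₄ 0), max N₁ (max N₂ (max N₃ (max N₄ N₅))),
    hN₁.trans (le_max_left _ _), ?_⟩
  intro R m S hS p hp j ξ hξ l₀
  have p1 : Adm R m S N₁ p := adm_mono hp (le_max_left _ _)
  have p2 : Adm R m S N₂ p := adm_mono hp (by simp)
  have p3 : Adm R m S N₃ p := adm_mono hp (by simp)
  have p4 : Adm R m S N₄ p := adm_mono hp (by simp)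
  have p5 : Adm R m S N₅ p := adm_mono hp (by simp)
  have hy1 : 0 < p.2.2.1 l₀ := by linarith [p1.2.1 l₀]
  have hy : ∀ k, 0 ≤ p.2.2.1 k := fun k => by linarith [p1.2.1 k]
  obtain ⟨k, t⟩ := j
  have hξ0 := norm_nonneg ξ
  have key := lgT_bound (O := O) (t := t) (v := (W R m).eul p l₀) (a2 R m S hS p p2) hξ hy
    (act_of hξ (a3 R m S hS p p3)) (A := max K₅ 0 * ‖ξ‖) (B := max K₁ 0 * (‖ξ‖ / p.2.2.1 l₀))
    (ρ := max K₄ 0 / p.2.2.1 l₀)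
    (by positivity) (by positivity) (by positivity)
    (fun k l hk hl hN => (a5 R m S hS p p5 t k l hk hl hN ξ hξ).1.trans
      (mul_le_mul_of_nonneg_right (le_max_left _ _) hξ0))
    (fun k => (a1 R m S hS p p1 (k, t) ξ hξ l₀).trans
      (mul_le_mul_of_nonneg_right (le_max_left _ _) (by positivity)))
    (fun k l hk hl hN => by
      obtain ⟨ζ, h1, h2⟩ := a4 R m S hS p p4 t k l hk hl hN l₀
      have h3 : K₄ / p.2.2.1 l₀ ≤ max K₄ 0 / p.2.2.1 l₀ := by gcongr; exact le_max_left _ _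
      exact ⟨ζ, LogN_mono h1 h3, LogN_mono h2 h3⟩) k
  refine key.trans (le_of_eq ?_)
  unfold cR
  ring

/-- **b6** -/
theorem t2_b6 {κ : Fin 3 → Fin 3 → ℝ} {O : One} (hA : AsyL κ (lgP O)) (h0 : InA0) (h4 : InA4 O)
    (hB1 : InB1) (hB4 : InB4) (hC : InC1 O) :
    ∃ K N₀ : ℝ, 1 ≤ N₀ ∧ ∀ R m S, FarOk R S → ∀ p, Adm R m S N₀ p → ∀ j ξ, IsCl ξ →
      (∀ k, bt ξ k = 0) →
      (∀ d : (W R m).Dir R.Cm, (∀ k, d ≠ .y k) →
        |lgT O R m S j ξ p ((W R m).vec d)| ≤ K * ww ξ p.2.2.1) ∧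
      ∀ k, |lgT O R m S j ξ p ((W R m).eul p k)| ≤
        K * (ww ξ p.2.2.1 * (mn p.2.2.1 / p.2.2.1 k)) := by
  obtain ⟨K₁, N₁, hN₁, a1⟩ := hA.b6
  obtain ⟨N₂, hN₂, a2⟩ := h0
  obtain ⟨N₃, hN₃, a3⟩ := h4
  obtain ⟨K₄, N₄, hN₄, a4⟩ := hB4
  obtain ⟨K₅, N₅, hN₅, a5⟩ := hC
  obtain ⟨K₆, N₆, hN₆, a6⟩ := hB1
  refine ⟨max (cR (max K₅ 0) (max K₁ 0) (max K₆ 0)) (cR (max K₅ 0) (max K₁ 0) (max K₄ 0)),
    max N₁ (max N₂ (max N₃ (max N₄ (max N₅ N₆)))), hN₁.trans (le_max_left _ _), ?_⟩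
  intro R m S hS p hp j ξ hξ hbt
  have p1 : Adm R m S N₁ p := adm_mono hp (le_max_left _ _)
  have p2 : Adm R m S N₂ p := adm_mono hp (by simp)
  have p3 : Adm R m S N₃ p := adm_mono hp (by simp)
  have p4 : Adm R m S N₄ p := adm_mono hp (by simp)
  have p5 : Adm R m S N₅ p := adm_mono hp (by simp)
  have p6 : Adm R m S N₆ p := adm_mono hp (by simp)
  have hy : ∀ k, 0 ≤ p.2.2.1 k := fun k => by linarith [p1.2.1 k]
  have hy1 : ∀ k, 1 ≤ p.2.2.1 k := fun k => by linarith [p1.2.1 k]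
  have hw := w_nonneg ξ hy
  obtain ⟨k, t⟩ := j
  constructor
  · intro d hd
    have key := lgT_bound (O := O) (t := t) (v := (W R m).vec d) (a2 R m S hS p p2) hξ hy
      (act_of hξ (a3 R m S hS p p3)) (A := max K₅ 0 * ww ξ p.2.2.1)
      (B := max K₁ 0 * ww ξ p.2.2.1) (ρ := max K₆ 0)
      (by positivity) (by positivity) (by positivity)
      (fun k l hk hl hN => ((a5 R m S hS p p5 t k l hk hl hN ξ hξ).2.2 hbt).trans
        (mul_le_mul_of_nonneg_right (le_max_left _ _) hw))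
      (fun k => ((a1 R m S hS p p1 (k, t) ξ hξ hbt).1 d hd).trans
        (mul_le_mul_of_nonneg_right (le_max_left _ _) hw))
      (fun k l hk hl _ => ⟨0, LogN_mono (a6 R m S hS p p6 t k hk d hd) (le_max_left _ _),
        LogN_mono (a6 R m S hS p p6 t l hl d hd) (le_max_left _ _)⟩) k
    refine key.trans ?_
    have e : max K₁ 0 * ww ξ p.2.2.1 + 7 ^ 2 * (2 * (Kn 7 * max K₆ 0) * 7 ^ 2 *
        (max K₅ 0 * ww ξ p.2.2.1) + (2 * (max K₁ 0 * ww ξ p.2.2.1) +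
        Kn 7 * max K₆ 0 * (max K₅ 0 * ww ξ p.2.2.1))) =
        cR (max K₅ 0) (max K₁ 0) (max K₆ 0) * ww ξ p.2.2.1 := by unfold cR; ring
    rw [e]
    exact mul_le_mul_of_nonneg_right (le_max_left _ _) hw
  · intro l₀
    have hl₀ : 0 < p.2.2.1 l₀ := by linarith [hy1 l₀]
    have hmn : 1 ≤ mn p.2.2.1 := le_min (hy1 0) (le_min (hy1 1) (hy1 2))
    have hmn0 : 0 ≤ mn p.2.2.1 := by linarith
    have hq : 0 ≤ ww ξ p.2.2.1 * (mn p.2.2.1 / p.2.2.1 l₀) := by positivity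
    have key := lgT_bound (O := O) (t := t) (v := (W R m).eul p l₀) (a2 R m S hS p p2) hξ hy
      (act_of hξ (a3 R m S hS p p3)) (A := max K₅ 0 * ww ξ p.2.2.1)
      (B := max K₁ 0 * (ww ξ p.2.2.1 * (mn p.2.2.1 / p.2.2.1 l₀))) (ρ := max K₄ 0 / p.2.2.1 l₀)
      (by positivity) (by positivity) (by positivity)
      (fun k l hk hl hN => ((a5 R m S hS p p5 t k l hk hl hN ξ hξ).2.2 hbt).trans
        (mul_le_mul_of_nonneg_right (le_max_left _ _) hw))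
      (fun k => ((a1 R m S hS p p1 (k, t) ξ hξ hbt).2 l₀).trans
        (mul_le_mul_of_nonneg_right (le_max_left _ _) hq))
      (fun k l hk hl hN => by
        obtain ⟨ζ, h1, h2⟩ := a4 R m S hS p p4 t k l hk hl hN l₀
        have h3 : K₄ / p.2.2.1 l₀ ≤ max K₄ 0 / p.2.2.1 l₀ := by gcongr; exact le_max_left _ _
        exact ⟨ζ, LogN_mono h1 h3, LogN_mono h2 h3⟩) k
    refine key.trans ?_
    have hKn : 0 ≤ Kn 7 := (Kn_pos 7).le
    have e1 : max K₄ 0 / p.2.2.1 l₀ * (max K₅ 0 * ww ξ p.2.2.1) ≤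
        max K₄ 0 * max K₅ 0 * (ww ξ p.2.2.1 * (mn p.2.2.1 / p.2.2.1 l₀)) := by
      have : max K₄ 0 / p.2.2.1 l₀ * (max K₅ 0 * ww ξ p.2.2.1) =
          max K₄ 0 * max K₅ 0 * (ww ξ p.2.2.1 * (1 / p.2.2.1 l₀)) := by ring
      rw [this]
      gcongr
    calc max K₁ 0 * (ww ξ p.2.2.1 * (mn p.2.2.1 / p.2.2.1 l₀)) + 7 ^ 2 *
          (2 * (Kn 7 * (max K₄ 0 / p.2.2.1 l₀)) * 7 ^ 2 * (max K₅ 0 * ww ξ p.2.2.1) +
          (2 * (max K₁ 0 * (ww ξ p.2.2.1 * (mn p.2.2.1 / p.2.2.1 l₀))) +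
            Kn 7 * (max K₄ 0 / p.2.2.1 l₀) * (max K₅ 0 * ww ξ p.2.2.1)))
        = max K₁ 0 * (ww ξ p.2.2.1 * (mn p.2.2.1 / p.2.2.1 l₀)) + 7 ^ 2 *
          (2 * Kn 7 * 7 ^ 2 * (max K₄ 0 / p.2.2.1 l₀ * (max K₅ 0 * ww ξ p.2.2.1)) +
          (2 * (max K₁ 0 * (ww ξ p.2.2.1 * (mn p.2.2.1 / p.2.2.1 l₀))) +
            Kn 7 * (max K₄ 0 / p.2.2.1 l₀ * (max K₅ 0 * ww ξ p.2.2.1)))) := by ring
      _ ≤ max K₁ 0 * (ww ξ p.2.2.1 * (mn p.2.2.1 / p.2.2.1 l₀)) + 7 ^ 2 *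
          (2 * Kn 7 * 7 ^ 2 * (max K₄ 0 * max K₅ 0 * (ww ξ p.2.2.1 * (mn p.2.2.1 / p.2.2.1 l₀))) +
          (2 * (max K₁ 0 * (ww ξ p.2.2.1 * (mn p.2.2.1 / p.2.2.1 l₀))) +
            Kn 7 * (max K₄ 0 * max K₅ 0 * (ww ξ p.2.2.1 * (mn p.2.2.1 / p.2.2.1 l₀))))) := by
          gcongr
      _ = cR (max K₅ 0) (max K₁ 0) (max K₄ 0) * (ww ξ p.2.2.1 * (mn p.2.2.1 / p.2.2.1 l₀)) := by
          unfold cR; ring
      _ ≤ _ := mul_le_mul_of_nonneg_right (le_max_right _ _) hq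

end Vale.Agent.P273.H724

end
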