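import Vale.Agent.P273.H724.T2b6
import Vale.Agent.P273.H778.T2b

/-! P273, (T2): `inAN` and the fields `b5`, `b6` over the inputs `HIns` of helper778. -/

noncomputable section

namespace Vale.Agent.P273.H724

open Set Filter H681 H95 H732 H562 H973 H578 H803
open Vale.Agent.P273.H778 (InA0 InA4 InAN InB1 InB4 InC1 HIns)
open scoped Topology ContDiff

/-- Marks near an active mark. -/
theorem inAN : InAN :=
  ⟨1, le_rfl, fun _ _ _ _ _ hp _ _ _ hk hl hN => act_near' zero_le_one hp hk hl hN⟩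

variable {O : One} {κ : Fin 3 → Fin 3 → ℝ} {K₁ M : ℝ}

/-- **b5** -/
theorem t2_b5' (hA : AsyL κ (lgP O)) (_hK : 1 ≤ K₁) (hM : 1 ≤ M) (hI : HIns O K₁ M) :
    ∃ K N₀ : ℝ, 1 ≤ N₀ ∧ ∀ R m S, FarOk R S → ∀ p, Adm R m S N₀ p → ∀ j ξ, IsCl ξ →
      ∀ k, |H778.lgT O R m S j ξ p ((W R m).eul p k)| ≤ K * (‖ξ‖ / p.2.2.1 k) :=
  t2_b5 hA ⟨M, hM, fun R m S hS p hp => (hI R m S hS p hp).brd⟩
    ⟨M, hM, fun R m S hS p hp => (hI R m S hS p hp).a4⟩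
    ⟨K₁, M, hM, fun R m S hS p hp => (hI R m S hS p hp).b4⟩
    ⟨K₁, M, hM, fun R m S hS p hp => (hI R m S hS p hp).c1⟩

/-- **b6** -/
theorem t2_b6' (hA : AsyL κ (lgP O)) (_hK : 1 ≤ K₁) (hM : 1 ≤ M) (hI : HIns O K₁ M) :
    ∃ K N₀ : ℝ, 1 ≤ N₀ ∧ ∀ R m S, FarOk R S → ∀ p, Adm R m S N₀ p → ∀ j ξ, IsCl ξ →
      (∀ k, bt ξ k = 0) →
      (∀ d : (W R m).Dir R.Cm, (∀ k, d ≠ .y k) →
        |H778.lgT O R m S j ξ p ((W R m).vec d)| ≤ K * ww ξ p.2.2.1) ∧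
      ∀ k, |H778.lgT O R m S j ξ p ((W R m).eul p k)| ≤
        K * (ww ξ p.2.2.1 * (mn p.2.2.1 / p.2.2.1 k)) :=
  t2_b6 hA ⟨M, hM, fun R m S hS p hp => (hI R m S hS p hp).brd⟩
    ⟨M, hM, fun R m S hS p hp => (hI R m S hS p hp).a4⟩
    ⟨K₁, M, hM, fun R m S hS p hp => (hI R m S hS p hp).b1⟩
    ⟨K₁, M, hM, fun R m S hS p hp => (hI R m S hS p hp).b4⟩
    ⟨K₁, M, hM, fun R m S hS p hp => (hI R m S hS p hp).c1⟩

end Vale.Agent.P273.H724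

end
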